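import Mathlib

namespace Vale.Agent.P235

open Classical Finset

/-- Sign of a cut indicator. -/
noncomputable def sgn (P : Prop) : ℝ := if P then 1 else -1

lemma sgn_cases (P : Prop) : sgn P = 1 ∨ sgn P = -1 := by
  unfold sgn; split_ifs <;> simp

variable {V κ : Type*} [Fintype κ]

/-- Character of a set of cuts. -/
noncomputable def chi (S : κ → Set V) (T : Finset κ) (x : V) : ℝ :=
  ∏ k ∈ T, sgn (x ∈ S k)

lemma chi_cases (S : κ → Set V) (T : Finset κ) (x : V) : chi S T x = 1 ∨ chi S T x = -1 := by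
  unfold chi
  induction T using Finset.induction_on with
  | empty => simp
  | insert a T ha ih =>
    rw [Finset.prod_insert ha]
    rcases sgn_cases (x ∈ S a) with h | h <;> rcases ih with h' | h' <;> simp [h, h']

/-- Probability weight of a set of cuts at scale `L`. -/
noncomputable def qw (w : κ → ℝ) (L : ℝ) (T : Finset κ) : ℝ :=
  (∏ k ∈ T, (1 - Real.exp (-(w k / L))) / 2) *
    ∏ k ∈ univ \ T, (1 + Real.exp (-(w k / L))) / 2

lemma qw_nonneg {w : κ → ℝ} (hw : ∀ k, 0 ≤ w k) {L : ℝ} (hL : 0 < L) (T : Finset κ) :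
    0 ≤ qw w L T := by
  refine mul_nonneg (prod_nonneg fun k _ => ?_) (prod_nonneg fun k _ => by positivity)
  have : Real.exp (-(w k / L)) ≤ 1 :=
    Real.exp_le_one_iff.2 (neg_nonpos.2 (div_nonneg (hw k) hL.le))
  linarith

/-- The cut metric. -/
noncomputable def cutDist (S : κ → Set V) (w : κ → ℝ) (x y : V) : ℝ :=
  ∑ k, if (x ∈ S k) ↔ (y ∈ S k) then 0 else w k

lemma qw_sum (w : κ → ℝ) (L : ℝ) : ∑ T ∈ (univ : Finset κ).powerset, qw w L T = 1 := by
  have := Finset.prod_add (fun k => (1 - Real.exp (-(w k / L))) / 2)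
    (fun k => (1 + Real.exp (-(w k / L))) / 2) (univ : Finset κ)
  rw [← show ∏ k : κ, ((1 - Real.exp (-(w k / L))) / 2 + (1 + Real.exp (-(w k / L))) / 2) = 1 from
    Finset.prod_eq_one fun k _ => by ring]
  rw [this]
  rfl

lemma qw_corr (S : κ → Set V) (w : κ → ℝ) (L : ℝ) (x y : V) :
    ∑ T ∈ (univ : Finset κ).powerset, qw w L T * (chi S T x * chi S T y) =
      Real.exp (-(cutDist S w x y / L)) := by
  have := Finset.prod_add (fun k => (1 - Real.exp (-(w k / L))) / 2 * (sgn (x ∈ S k) * sgn (y ∈ S k)))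
    (fun k => (1 + Real.exp (-(w k / L))) / 2) (univ : Finset κ)
  have e : ∀ k, (1 - Real.exp (-(w k / L))) / 2 * (sgn (x ∈ S k) * sgn (y ∈ S k)) +
      (1 + Real.exp (-(w k / L))) / 2 =
      Real.exp (-((if (x ∈ S k) ↔ (y ∈ S k) then 0 else w k) / L)) := by
    intro k
    by_cases hx : x ∈ S k <;> by_cases hy : y ∈ S k <;> simp [sgn, hx, hy] <;> ring
  simp only [e] at this
  rw [cutDist, Finset.sum_div, ← Finset.sum_neg_distrib, Real.exp_sum, this]
  refine Finset.sum_congr rfl fun T _ => ?_
  simp only [qw, chi, Finset.prod_mul_distrib]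
  ring

/-- Exact l1 distance between two weighted truncation features. -/
lemma feature_dist (S : κ → Set V) {w : κ → ℝ} (hw : ∀ k, 0 ≤ w k) {L : ℝ} (hL : 0 < L)
    {a b : ℝ} (ha : 0 ≤ a) (hb : 0 ≤ b) (x y : V) :
    ∑ T : Finset κ, |a * (qw w L T * chi S T x) - b * (qw w L T * chi S T y)| =
      |a - b| * (1 + Real.exp (-(cutDist S w x y / L))) / 2 +
        (a + b) * (1 - Real.exp (-(cutDist S w x y / L))) / 2 := by
  have pt : ∀ T : Finset κ, |a * (qw w L T * chi S T x) - b * (qw w L T * chi S T y)| =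
      (|a - b| + (a + b)) / 2 * qw w L T +
        (|a - b| - (a + b)) / 2 * (qw w L T * (chi S T x * chi S T y)) := by
    intro T
    have hq := qw_nonneg hw hL T
    rcases chi_cases S T x with h | h <;> rcases chi_cases S T y with h' | h' <;> rw [h, h']
    · rw [show a * (qw w L T * 1) - b * (qw w L T * 1) = (a - b) * qw w L T by ring,
        abs_mul, abs_of_nonneg hq]; ring
    · rw [show a * (qw w L T * 1) - b * (qw w L T * -1) = (a + b) * qw w L T by ring,
        abs_mul, abs_of_nonneg hq, abs_of_nonneg (by positivity : 0 ≤ a + b)]; ring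
    · rw [show a * (qw w L T * -1) - b * (qw w L T * 1) = -((a + b) * qw w L T) by ring,
        abs_neg, abs_mul, abs_of_nonneg hq, abs_of_nonneg (by positivity : 0 ≤ a + b)]; ring
    · rw [show a * (qw w L T * -1) - b * (qw w L T * -1) = -((a - b) * qw w L T) by ring,
        abs_neg, abs_mul, abs_of_nonneg hq]; ring
  rw [Finset.sum_congr rfl (fun T _ => pt T), Finset.sum_add_distrib, ← Finset.mul_sum,
    ← Finset.mul_sum, ← Finset.powerset_univ, qw_sum, qw_corr]
  ring

/-- Predecessor in a finite set of reals. -/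
noncomputable def prev (T : Finset ℝ) (t : ℝ) : ℝ :=
  if h : (T.filter (· < t)).Nonempty then (T.filter (· < t)).max' h else t

lemma prev_le (T : Finset ℝ) (t : ℝ) : prev T t ≤ t := by
  unfold prev
  split_ifs with h
  · exact le_of_lt (mem_filter.1 (Finset.max'_mem _ h)).2
  · exact le_rfl

lemma prev_insert {T : Finset ℝ} {m t : ℝ} (hm : ∀ s ∈ T, s < m) (ht : t ≤ m) :
    prev (insert m T) t = prev T t := by
  have : (insert m T).filter (· < t) = T.filter (· < t) := by
    rw [Finset.filter_insert, if_neg (not_lt.2 ht)]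
  unfold prev
  simp only [this]

lemma telescope (T : Finset ℝ) : ∀ a ∈ T, ∀ b ∈ T, a ≤ b →
    ∑ t ∈ T, (if a < t ∧ t ≤ b then t - prev T t else 0) = b - a := by
  induction T using Finset.induction_on_max with
  | empty => simp
  | insert m T hm ih =>
    have hnot : m ∉ T := fun h => lt_irrefl m (hm m h)
    intro a ha b hb hab
    rw [Finset.sum_insert hnot]
    have hs : ∑ t ∈ T, (if a < t ∧ t ≤ b then t - prev (insert m T) t else 0) =
        ∑ t ∈ T, (if a < t ∧ t ≤ b then t - prev T t else 0) :=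
      Finset.sum_congr rfl fun t ht => by rw [prev_insert hm (hm t ht).le]
    rw [hs]
    rcases Finset.mem_insert.1 hb with hbm | hbT
    · subst hbm
      rcases Finset.mem_insert.1 ha with ham | haT
      · subst ham
        simp only [lt_irrefl, false_and, if_false, zero_add, sub_self]
        exact Finset.sum_eq_zero fun t ht => if_neg fun h => absurd (hm t ht) (not_lt.2 h.1.le)
      · have hne : T.Nonempty := ⟨a, haT⟩
        have hp : prev (insert b T) b = T.max' hne := by
          have : (insert b T).filter (· < b) = T := by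
            rw [Finset.filter_insert, if_neg (lt_irrefl b), Finset.filter_true_of_mem hm]
          unfold prev
          simp only [this, hne, dif_pos]
        have h2 := ih a haT _ (T.max'_mem hne) (T.le_max' a haT)
        have h3 : ∑ t ∈ T, (if a < t ∧ t ≤ b then t - prev T t else 0) =
            ∑ t ∈ T, (if a < t ∧ t ≤ T.max' hne then t - prev T t else 0) :=
          Finset.sum_congr rfl fun t ht => by simp [(hm t ht).le, T.le_max' t ht]
        rw [h3, h2, if_pos ⟨hm a haT, le_rfl⟩, hp]
        ring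
    · have haT : a ∈ T := by
        rcases Finset.mem_insert.1 ha with rfl | h
        · exact absurd (hm b hbT) (not_lt.2 hab)
        · exact h
      rw [if_neg fun h => absurd (hm b hbT) (not_lt.2 h.2), zero_add, ih a haT b hbT hab]

lemma telescope_abs (T : Finset ℝ) {a b : ℝ} (ha : a ∈ T) (hb : b ∈ T) :
    ∑ t ∈ T, (if (t ≤ a ↔ t ≤ b) then 0 else t - prev T t) = |a - b| := by
  rcases le_total a b with h | h
  · rw [abs_sub_comm, abs_of_nonneg (sub_nonneg.2 h), ← telescope T a ha b hb h]
    refine Finset.sum_congr rfl fun t _ => ?_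
    by_cases h1 : t ≤ a <;> by_cases h2 : t ≤ b <;> simp [h1, h2, not_lt.2, lt_of_not_ge]
    exact absurd (h1.trans h) h2
  · rw [abs_of_nonneg (sub_nonneg.2 h), ← telescope T b hb a ha h]
    refine Finset.sum_congr rfl fun t _ => ?_
    by_cases h1 : t ≤ a <;> by_cases h2 : t ≤ b <;> simp [h1, h2, not_lt.2, lt_of_not_ge]
    exact absurd (h2.trans h) h1

/-- Every finite family in finite dimensional l1 is a cut metric. -/
lemma exists_cuts [Fintype V] {ι : Type*} [Fintype ι] (f : V → ι → ℝ) :
    ∃ (n : ℕ) (S : Fin n → Set V) (w : Fin n → ℝ), (∀ k, 0 ≤ w k) ∧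
      ∀ x y, cutDist S w x y = ∑ i, |f x i - f y i| := by
  let T : ι → Finset ℝ := fun i => univ.image fun x => f x i
  let κ' := Σ i : ι, {t // t ∈ T i}
  let e := (Fintype.equivFin κ').symm
  refine ⟨Fintype.card κ', fun k => {x | ((e k).2 : ℝ) ≤ f x (e k).1},
    fun k => ((e k).2 : ℝ) - prev (T (e k).1) (e k).2, fun k => sub_nonneg.2 (prev_le _ _),
    fun x y => ?_⟩
  unfold cutDist
  rw [Equiv.sum_comp e (fun s : κ' =>
    if (x ∈ {z : V | (s.2 : ℝ) ≤ f z s.1}) ↔ (y ∈ {z : V | (s.2 : ℝ) ≤ f z s.1}) then (0 : ℝ)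
      else (s.2 : ℝ) - prev (T s.1) s.2), Fintype.sum_sigma]
  refine Finset.sum_congr rfl fun i _ => ?_
  rw [← telescope_abs (T i) (mem_image_of_mem _ (mem_univ x)) (mem_image_of_mem _ (mem_univ y))]
  simp only [Set.mem_ofPred_eq]
  rw [← Finset.sum_coe_sort (T i)]

end Vale.Agent.P235
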