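import Vale.Agent.P235.Metric
import Vale.Agent.P235.Trunc

namespace Vale.Agent.P235

open Classical Finset

/-- Trapezoid active on scales comparable with `2 ^ n`. -/
noncomputable def bump (n : ℤ) (R : ℝ) : ℝ :=
  max 0 (min (min (R - 2 ^ n) (8 * 2 ^ n - R)) (2 ^ n))

lemma bump_nonneg (n : ℤ) (R : ℝ) : 0 ≤ bump n R := le_max_left _ _

lemma bump_le (n : ℤ) (R : ℝ) : bump n R ≤ 2 ^ n :=
  max_le (zpow_nonneg two_pos.le n) (min_le_right _ _)

lemma bump_le_self (n : ℤ) {R : ℝ} (hR : 0 ≤ R) : bump n R ≤ R :=
  max_le hR (((min_le_left _ _).trans (min_le_left _ _)).trans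
    (sub_le_self R (zpow_nonneg two_pos.le n)))

lemma bump_lip (n : ℤ) (R R' : ℝ) : |bump n R - bump n R'| ≤ |R - R'| := by
  have h := le_abs_self (R - R')
  have h' := neg_abs_le (R - R')
  unfold bump
  rw [abs_le]
  constructor <;>
    (simp only [max_def, min_def]; split_ifs <;> linarith [zpow_pos (two_pos (α := ℝ)) n])

lemma bump_active {n : ℤ} {R : ℝ} (h : bump n R ≠ 0) : 2 ^ n < R ∧ R < 8 * 2 ^ n := by
  by_contra hc
  apply h
  rw [not_and_or, not_lt, not_lt] at hc
  refine max_eq_left ((min_le_left _ _).trans ?_)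
  rcases hc with hc | hc
  · exact (min_le_left _ _).trans (by linarith)
  · exact (min_le_right _ _).trans (by linarith)

lemma active_card (I : Finset ℤ) (R : ℝ) : #(I.filter fun n => bump n R ≠ 0) ≤ 3 := by
  by_cases hne : (I.filter fun n => bump n R ≠ 0).Nonempty
  · set s := I.filter fun n => bump n R ≠ 0 with hs
    have hsub : s ⊆ Finset.Icc (s.min' hne) (s.min' hne + 2) := by
      intro n hn
      rw [Finset.mem_Icc]
      refine ⟨s.min'_le n hn, ?_⟩
      have h1 := bump_active (mem_filter.1 hn).2
      have h2 := bump_active (mem_filter.1 (s.min'_mem hne)).2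
      have : (2 : ℝ) ^ n < 2 ^ (s.min' hne + 3) := by
        rw [zpow_add₀ two_ne_zero]; norm_num; linarith [h1.1, h2.2]
      have := (zpow_lt_zpow_iff_right₀ (one_lt_two : (1 : ℝ) < 2)).1 this
      omega
    refine (card_le_card hsub).trans ?_
    rw [Int.card_Icc]; omega
  · rw [Finset.not_nonempty_iff_eq_empty.1 hne]; simp

variable {V : Type} [Fintype V] {G : SimpleGraph V} {ℓ : Sym2 V → ℝ}

lemma removeVerts_le (A : Set V) : removeVerts G A ≤ G := fun _ _ h => h.1

/-- Adding at most `k` vertices to one component preserves bounded l1 distortion. -/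
theorem apex_component (hℓ : ∀ e, 0 ≤ ℓ e) (A : Set V) (c : G.ConnectedComponent) {k : ℕ}
    (hA : #(univ.filter fun a => a ∈ A ∧ G.connectedComponentMk a = c) ≤ k) {C : ℝ} (hC : 0 ≤ C)
    (hH : EmbedsL1 (removeVerts G A) ℓ C) :
    ∃ (N : ℕ) (F : V → Fin N → ℝ),
      (∀ x, G.connectedComponentMk x ≠ c → ∀ i, F x i = 0) ∧
      ∀ x y, G.connectedComponentMk x = c → G.connectedComponentMk y = c →
        gdist G ℓ x y ≤ ∑ i, |F x i - F y i| ∧
        ∑ i, |F x i - F y i| ≤ 200 * ((k : ℝ) + C + 1) * gdist G ℓ x y := by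
  set H := removeVerts G A with hHdef
  obtain ⟨N, f, hf⟩ := hH
  set B := univ.filter fun a => a ∈ A ∧ G.connectedComponentMk a = c with hB
  have memB : ∀ a, a ∈ B ↔ a ∈ A ∧ G.connectedComponentMk a = c := fun a => by simp [hB]
  have inB : ∀ a ∈ B, G.connectedComponentMk a = c := fun a ha => ((memB a).1 ha).2
  have rch : ∀ x y, G.connectedComponentMk x = c → G.connectedComponentMk y = c →
      G.Reachable x y := fun x y hx hy => SimpleGraph.ConnectedComponent.exact (hx.trans hy.symm)
  have out : ∀ x y, G.Adj x y → (G.connectedComponentMk x = c ↔ G.connectedComponentMk y = c) :=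
    fun x y h => by rw [SimpleGraph.ConnectedComponent.connectedComponentMk_eq_of_adj h]
  have hkC : C ≤ 200 * ((k : ℝ) + C + 1) := by
    have := (Nat.cast_nonneg k : (0 : ℝ) ≤ k); linarith
  suffices main : ∃ (ι : Type) (_ : Fintype ι) (F : V → ι → ℝ),
      (∀ x y, G.connectedComponentMk x = c → G.connectedComponentMk y = c →
        gdist G ℓ x y ≤ ∑ i, |F x i - F y i|) ∧
      ∀ x y, G.connectedComponentMk x = c → G.connectedComponentMk y = c → G.Adj x y →
        ∑ i, |F x i - F y i| ≤ 200 * ((k : ℝ) + C + 1) * ℓ s(x, y) by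
    obtain ⟨ι, _, F, hlow, hup⟩ := main
    let e := (Fintype.equivFin ι).symm
    refine ⟨Fintype.card ι, fun x i => if G.connectedComponentMk x = c then F x (e i) else 0,
      fun x hx i => if_neg hx, fun x y hx hy => ⟨?_, ?_⟩⟩
    · simp only [if_pos hx, if_pos hy]
      rw [Equiv.sum_comp e fun i => |F x i - F y i|]
      exact hlow x y hx hy
    · refine lipschitz_of_edges (fun x i => if G.connectedComponentMk x = c then F x (e i) else 0) (by positivity) (fun a b hab => ?_) (rch x y hx hy)
      by_cases ha : G.connectedComponentMk a = c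
      · simp only [if_pos ha, if_pos ((out a b hab).1 ha)]
        rw [Equiv.sum_comp e fun i => |F a i - F b i|]
        exact hup a b ha ((out a b hab).1 ha) hab
      · have hb : ¬ G.connectedComponentMk b = c := fun h => ha ((out a b hab).2 h)
        simp only [if_neg ha, if_neg hb, sub_self, abs_zero, sum_const_zero]
        exact mul_nonneg (by positivity) (hℓ _)
  rcases B.eq_empty_or_nonempty with hB0 | hne
  · have noA : ∀ x, G.connectedComponentMk x = c → x ∉ A := fun x hx hxA => by
      have := (memB x).2 ⟨hxA, hx⟩; simp [hB0] at this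
    have hadj : ∀ a b, G.connectedComponentMk a = c → G.Adj a b → H.Adj a b := fun a b ha h =>
      ⟨h, noA a ha, noA b ((out a b h).1 ha)⟩
    have walks : ∀ {x y : V} (p : G.Walk x y), G.connectedComponentMk x = c → H.Reachable x y := by
      intro x y p
      induction p with
      | nil => exact fun _ => SimpleGraph.Reachable.refl _
      | cons h p ih => exact fun hx => (hadj _ _ hx h).reachable.trans (ih ((out _ _ h).1 hx))
    refine ⟨Fin N, inferInstance, f, fun x y hx hy => ?_, fun x y hx hy hxy => ?_⟩
    · obtain ⟨p⟩ := rch x y hx hy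
      exact (gdist_mono hℓ (removeVerts_le _) (walks p hx)).trans (hf x y (walks p hx)).1
    · have h := hadj x y hx hxy
      exact ((hf x y h.reachable).2.trans (mul_le_mul_of_nonneg_left (gdist_adj hℓ h) hC)).trans
        (mul_le_mul_of_nonneg_right hkC (hℓ _))
  let d : V → V → ℝ := gdist G ℓ
  have dn : ∀ x y, 0 ≤ d x y := gdist_nonneg hℓ
  have dc : ∀ x y, G.connectedComponentMk x = c → G.connectedComponentMk y = c →
      d x y = d y x := fun x y hx hy => gdist_comm hℓ (rch x y hx hy)
  have dt : ∀ x y z, G.connectedComponentMk x = c → G.connectedComponentMk y = c →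
      G.connectedComponentMk z = c → d x z ≤ d x y + d y z := fun x y z hx hy hz =>
    gdist_triangle hℓ (rch x y hx hy) (rch y z hy hz)
  -- separate the components of `H`
  let M : ℝ := ∑ p : V × V, d p.1 p.2
  let g : V → (Fin N ⊕ V) → ℝ := fun x =>
    Sum.elim (f x) fun c => if H.Reachable x c then M else 0
  obtain ⟨m, S, w, hw, hcut⟩ := exists_cuts g
  have cut_lower : ∀ x y, d x y ≤ cutDist S w x y := by
    intro x y
    rw [hcut, Fintype.sum_sum_type]
    by_cases h : H.Reachable x y
    · exact ((gdist_mono hℓ (removeVerts_le _) h).trans (hf x y h).1).trans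
        (le_add_of_nonneg_right (sum_nonneg fun _ _ => abs_nonneg _))
    · have hM : d x y ≤ M :=
        single_le_sum (f := fun p : V × V => d p.1 p.2) (fun p _ => dn _ _) (mem_univ (x, y))
      refine le_trans ?_ (le_add_of_nonneg_left (sum_nonneg fun _ _ => abs_nonneg _))
      refine le_trans ?_ (single_le_sum (fun c _ => abs_nonneg _) (mem_univ x))
      have h' : ¬ H.Reachable y x := fun r => h r.symm
      simp only [g, Sum.elim_inr, SimpleGraph.Reachable.refl, if_true, h', if_false, sub_zero]
      exact hM.trans (le_abs_self M)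
  have cut_upper : ∀ x y, H.Adj x y → cutDist S w x y ≤ C * ℓ s(x, y) := by
    intro x y h
    have iff : ∀ c, H.Reachable x c ↔ H.Reachable y c := fun c =>
      ⟨fun r => h.symm.reachable.trans r, fun r => h.reachable.trans r⟩
    rw [hcut, Fintype.sum_sum_type]
    simp only [g, Sum.elim_inl, Sum.elim_inr, iff, sub_self, abs_zero, sum_const_zero, add_zero]
    exact (hf x y h.reachable).2.trans (mul_le_mul_of_nonneg_left (gdist_adj hℓ h) hC)
  -- distance to A and scales
  let R : V → ℝ := fun x => B.inf' hne fun a => d x a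
  have Rn : ∀ x, 0 ≤ R x := fun x => Finset.le_inf' hne _ fun a _ => dn x a
  have Ra : ∀ a ∈ B, R a = 0 := fun a ha =>
    le_antisymm ((Finset.inf'_le _ ha).trans_eq (gdist_self hℓ a)) (Rn a)
  have Rle : ∀ x y, G.connectedComponentMk x = c → G.connectedComponentMk y = c →
      R x ≤ R y + d x y := by
    intro x y hx hy
    obtain ⟨a, ha, he⟩ := Finset.exists_mem_eq_inf' hne fun a => d y a
    have : R x ≤ d x a := Finset.inf'_le _ ha
    have := dt x y a hx hy (inB a ha)
    change R x ≤ B.inf' hne (fun a => d y a) + d x y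
    rw [he]; linarith
  have Rlip : ∀ x y, G.connectedComponentMk x = c → G.connectedComponentMk y = c →
      |R x - R y| ≤ d x y := fun x y hx hy =>
    abs_sub_le_iff.2 ⟨by linarith [Rle x y hx hy], by linarith [Rle y x hy hx, dc x y hx hy]⟩
  let I : Finset ℤ := univ.image fun x => Int.log 2 (R x) - 1
  let K : ℤ → V → Finset (Fin m) → ℝ := fun n x T =>
    bump n (R x) * (qw w ((2 : ℝ) ^ n) T * chi S T x)
  let F : V → ({a // a ∈ B} ⊕ ({n // n ∈ I} × Finset (Fin m))) → ℝ := fun x =>
    Sum.elim (fun a => 15 * d x a.1) fun p => 15 * K p.1.1 x p.2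
  have hsum : ∀ x y, ∑ i, |F x i - F y i| =
      15 * ((∑ a ∈ B, |d x a - d y a|) + ∑ n ∈ I, ∑ T, |K n x T - K n y T|) := by
    intro x y
    simp only [F, Fintype.sum_sum_type, Sum.elim_inl, Sum.elim_inr, ← mul_sub, abs_mul,
      Fintype.sum_prod_type, ← Finset.mul_sum]
    rw [mul_add, Finset.sum_coe_sort B fun a => |d x a - d y a|,
      Finset.sum_coe_sort I fun n => ∑ T, |K n x T - K n y T|]
    norm_num
  have scale : ∀ n : ℤ, (0 : ℝ) < 2 ^ n := fun n => zpow_pos two_pos n
  have kdist : ∀ n x y, ∑ T, |K n x T - K n y T| =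
      |bump n (R x) - bump n (R y)| *
        (1 + Real.exp (-(cutDist S w x y / 2 ^ n))) / 2 +
      (bump n (R x) + bump n (R y)) *
        (1 - Real.exp (-(cutDist S w x y / 2 ^ n))) / 2 := fun n x y =>
    feature_dist S hw (scale n) (bump_nonneg _ _) (bump_nonneg _ _) x y
  have upper : ∀ x y, G.connectedComponentMk x = c → G.connectedComponentMk y = c → G.Adj x y →
      ∑ i, |F x i - F y i| ≤ 200 * ((k : ℝ) + C + 1) * ℓ s(x, y) := by
    intro x y hx hy hxy
    have hd : d x y ≤ ℓ s(x, y) := gdist_adj hℓ hxy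
    have hl := hℓ s(x, y)
    have h1 : ∑ a ∈ B, |d x a - d y a| ≤ (k : ℝ) * ℓ s(x, y) := by
      refine (Finset.sum_le_card_nsmul B _ (ℓ s(x, y)) fun a ha => ?_).trans ?_
      · exact (abs_sub_le_iff.2 ⟨by linarith [dt x y a hx hy (inB a ha)],
          by linarith [dt y x a hy hx (inB a ha), dc x y hx hy]⟩).trans hd
      · rw [nsmul_eq_mul]; exact mul_le_mul_of_nonneg_right (by exact_mod_cast hA) hl
    have per : ∀ n, ∑ T, |K n x T - K n y T| ≤
        if bump n (R x) ≠ 0 ∨ bump n (R y) ≠ 0 then (C + 2) * ℓ s(x, y) else 0 := by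
      intro n
      rw [kdist n x y]
      split_ifs with hact
      · have hR : |bump n (R x) - bump n (R y)| ≤ ℓ s(x, y) :=
          ((bump_lip n _ _).trans (Rlip x y hx hy)).trans hd
        set e := Real.exp (-(cutDist S w x y / 2 ^ n)) with he
        have e0 : 0 ≤ e := (Real.exp_pos _).le
        have hcn : 0 ≤ cutDist S w x y / (2 : ℝ) ^ n :=
          div_nonneg ((dn x y).trans (cut_lower x y)) (scale n).le
        have e1 : e ≤ 1 := Real.exp_le_one_iff.2 (neg_nonpos.2 hcn)
        have hne1 : |bump n (R x) - bump n (R y)| * (1 + e) / 2 ≤ ℓ s(x, y) := by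
          have := mul_le_mul hR (by linarith : (1 + e) ≤ 2) (by linarith) hl
          linarith
        have hcl : 0 ≤ C * ℓ s(x, y) := mul_nonneg hC hl
        by_cases hxA : x ∈ B ∨ y ∈ B
        · have hs : bump n (R x) + bump n (R y) ≤ ℓ s(x, y) := by
            rcases hxA with h | h
            · have : bump n (R x) = 0 :=
                le_antisymm ((bump_le_self n (Rn x)).trans (Ra x h).le) (bump_nonneg _ _)
              have := bump_le_self n (Rn y)
              have := Rle y x hy hx
              rw [Ra x h, dc y x hy hx] at this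
              linarith
            · have : bump n (R y) = 0 :=
                le_antisymm ((bump_le_self n (Rn y)).trans (Ra y h).le) (bump_nonneg _ _)
              have := bump_le_self n (Rn x)
              have := Rle x y hx hy
              rw [Ra y h] at this
              linarith
          have := mul_le_mul hs (by linarith : 1 - e ≤ 1) (by linarith) hl
          nlinarith
        · push_neg at hxA
          have hadj : H.Adj x y := ⟨hxy, fun h => hxA.1 ((memB x).2 ⟨h, hx⟩),
            fun h => hxA.2 ((memB y).2 ⟨h, hy⟩)⟩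
          have h2 : 1 - e ≤ cutDist S w x y / 2 ^ n := by
            have := Real.add_one_le_exp (-(cutDist S w x y / (2 : ℝ) ^ n))
            linarith
          have h3 : (bump n (R x) + bump n (R y)) * (1 - e) ≤ 2 * cutDist S w x y := by
            refine (mul_le_mul (add_le_add (bump_le n _) (bump_le n _)) h2 (by linarith)
              (by linarith [scale n])).trans_eq ?_
            field_simp
            ring
          linarith [cut_upper x y hadj]
      · push_neg at hact
        simp [hact.1, hact.2]
    have h2 : ∑ n ∈ I, ∑ T, |K n x T - K n y T| ≤ 6 * ((C + 2) * ℓ s(x, y)) := by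
      refine (Finset.sum_le_sum fun n _ => per n).trans ?_
      rw [← Finset.sum_filter, Finset.sum_const, nsmul_eq_mul, Finset.filter_or]
      refine mul_le_mul_of_nonneg_right ?_ (by positivity)
      have := (Finset.card_union_le _ _).trans
        (add_le_add (active_card I (R x)) (active_card I (R y)))
      exact_mod_cast this
    rw [hsum]
    have hkl : 0 ≤ (k : ℝ) * ℓ s(x, y) := mul_nonneg (Nat.cast_nonneg k) hl
    nlinarith
  have lower : ∀ x y, G.connectedComponentMk x = c → G.connectedComponentMk y = c →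
      d x y ≤ ∑ i, |F x i - F y i| := by
    intro x y hx hy
    rw [hsum]
    have hA' : ∀ a ∈ B, |d x a - d y a| ≤ ∑ a ∈ B, |d x a - d y a| := fun a ha =>
      single_le_sum (f := fun a => |d x a - d y a|) (fun _ _ => abs_nonneg _) ha
    have hKn : 0 ≤ ∑ n ∈ I, ∑ T, |K n x T - K n y T| :=
      sum_nonneg fun _ _ => sum_nonneg fun _ _ => abs_nonneg _
    have hAn : 0 ≤ ∑ a ∈ B, |d x a - d y a| := sum_nonneg fun _ _ => abs_nonneg _
    rcases le_or_gt (d x y / 8) (∑ a ∈ B, |d x a - d y a|) with hbig | hsmall
    · linarith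
    have hD : 0 < d x y := by linarith
    obtain ⟨a, ha, he⟩ := Finset.exists_mem_eq_inf' hne fun a => d x a
    have hxa : d x a = R x := he.symm
    obtain ⟨b, hb, he'⟩ := Finset.exists_mem_eq_inf' hne fun a => d y a
    have hyb : d y b = R y := he'.symm
    have h7x : 7 * d x y ≤ 16 * R x := by
      have := (hA' a ha).trans_lt hsmall
      rw [abs_lt] at this
      linarith [dt x a y hx (inB a ha) hy, dc a y (inB a ha) hy]
    have h7y : 7 * d x y ≤ 16 * R y := by
      have := (hA' b hb).trans_lt hsmall
      rw [abs_lt] at this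
      linarith [dt x b y hx (inB b hb) hy, dc b y (inB b hb) hy]
    have hRxy : |R x - R y| ≤ d x y / 8 := by
      have h1 := (hA' a ha).trans_lt hsmall
      have h2 := (hA' b hb).trans_lt hsmall
      have h3 : R y ≤ d y a := Finset.inf'_le _ ha
      have h4 : R x ≤ d x b := Finset.inf'_le _ hb
      rw [abs_lt] at h1 h2
      exact abs_sub_le_iff.2 ⟨by linarith, by linarith⟩
    rw [abs_sub_le_iff] at hRxy
    have hRx : 0 < R x := by linarith
    set n := Int.log 2 (R x) - 1 with hn
    have hnI : n ∈ I := mem_image_of_mem _ (mem_univ x)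
    have hlo : 2 * (2 : ℝ) ^ n ≤ R x := by
      have := Int.zpow_log_le_self (b := 2) one_lt_two hRx
      rw [show Int.log 2 (R x) = n + 1 by omega, zpow_add₀ (by norm_num)] at this
      push_cast at this
      rw [zpow_one] at this
      linarith
    have hhi : R x < 4 * (2 : ℝ) ^ n := by
      have := Int.lt_zpow_succ_log_self (b := 2) one_lt_two (R x)
      rw [show Int.log 2 (R x) + 1 = n + 2 by omega, zpow_add₀ (by norm_num)] at this
      push_cast at this
      norm_num at this
      linarith
    have hL := scale n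
    have bx : (2 : ℝ) ^ n ≤ bump n (R x) :=
      le_max_of_le_right (le_min (le_min (by linarith) (by linarith)) le_rfl)
    have hby : 2 / 5 * (2 : ℝ) ^ n ≤ bump n (R y) :=
      le_max_of_le_right (le_min (le_min (by linarith) (by linarith)) (by linarith))
    set z := d x y / (2 : ℝ) ^ n with hz
    have hz0 : 0 ≤ z := div_nonneg hD.le hL.le
    have hzmul : z * (2 : ℝ) ^ n = d x y := div_mul_cancel₀ _ hL.ne'
    set e := Real.exp (-(cutDist S w x y / 2 ^ n)) with he
    have hez : e * (1 + z) ≤ 1 := by
      have h1 : e ≤ Real.exp (-z) := Real.exp_le_exp.2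
        (neg_le_neg (div_le_div_of_nonneg_right (cut_lower x y) hL.le))
      have h2 : 1 + z ≤ Real.exp z := by linarith [Real.add_one_le_exp z]
      refine (mul_le_mul h1 h2 (by linarith) (Real.exp_pos _).le).trans_eq ?_
      rw [← Real.exp_add]; simp
    have hzb : z ≤ 64 / 7 := by
      rw [hz, div_le_iff₀ hL]; linarith
    have e0 : 0 ≤ e := (Real.exp_pos _).le
    have e1 : e ≤ 1 := by nlinarith
    have hmain : d x y / 15 ≤ ∑ T, |K n x T - K n y T| := by
      rw [kdist n x y, ← he]
      have h0 : 0 ≤ |bump n (R x) - bump n (R y)| * (1 + e) / 2 := by positivity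
      have h1 : 7 / 5 * (2 : ℝ) ^ n * (1 - e) ≤
          (bump n (R x) + bump n (R y)) * (1 - e) :=
        mul_le_mul_of_nonneg_right (by linarith) (by linarith)
      have h2 : z ≤ (1 - e) * (1 + z) := by nlinarith
      have h3 : z ≤ (1 - e) * (71 / 7) :=
        h2.trans (mul_le_mul_of_nonneg_left (by linarith) (by linarith))
      have h4 : d x y ≤ (1 - e) * (71 / 7) * (2 : ℝ) ^ n := by
        rw [← hzmul]; exact mul_le_mul_of_nonneg_right h3 hL.le
      nlinarith
    have := (single_le_sum (f := fun n => ∑ T, |K n x T - K n y T|)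
      (fun _ _ => sum_nonneg fun _ _ => abs_nonneg _) hnI)
    linarith
  exact ⟨_, inferInstance, F, lower, upper⟩

/-- Adding at most `k` vertices per component preserves bounded l1 distortion. -/
theorem apex_embeds (hℓ : ∀ e, 0 ≤ ℓ e) (A : Set V) {k : ℕ}
    (hA : ∀ c : G.ConnectedComponent,
      #(univ.filter fun a => a ∈ A ∧ G.connectedComponentMk a = c) ≤ k) {C : ℝ} (hC : 0 ≤ C)
    (hH : EmbedsL1 (removeVerts G A) ℓ C) :
    EmbedsL1 G ℓ (200 * ((k : ℝ) + C + 1)) := by
  choose N F hout hin using fun c => apex_component hℓ A c (hA c) hC hH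
  refine embedsL1_of_fintype (ι := Σ c : G.ConnectedComponent, Fin (N c))
    (fun x p => F p.1 x p.2) fun x y hxy => ?_
  have e : ∑ p : Σ c : G.ConnectedComponent, Fin (N c), |F p.1 x p.2 - F p.1 y p.2| =
      ∑ i, |F (G.connectedComponentMk x) x i - F (G.connectedComponentMk x) y i| := by
    rw [Fintype.sum_sigma]
    refine Finset.sum_eq_single _ (fun c _ hc => Finset.sum_eq_zero fun i _ => ?_) (by simp)
    rw [hout c x (Ne.symm hc), hout c y]
    · simp
    · rw [← SimpleGraph.ConnectedComponent.sound hxy]; exact Ne.symm hc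
  rw [e]
  exact hin _ x y rfl (SimpleGraph.ConnectedComponent.sound hxy).symm

/-- Graphs that become forests after `r` rounds, each round deleting at most `k` vertices in
every component of the current graph. -/
def ElimToForest (k : ℕ) : ℕ → SimpleGraph V → Prop
  | 0, G => G.IsAcyclic
  | r + 1, G => ∃ A : Set V,
      (∀ c : G.ConnectedComponent, ∀ s : Finset V,
        (∀ a ∈ s, a ∈ A ∧ G.connectedComponentMk a = c) → #s ≤ k) ∧
      ElimToForest k r (removeVerts G A)

end Vale.Agent.P235
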