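import Vale.Agent.P235.Metric

namespace Vale.Agent.P235

open Classical Finset

variable {V : Type*} [Fintype V] {H : SimpleGraph V} {ℓ : Sym2 V → ℝ}

/-- Which side of the edge `e.1 - e.2` a vertex is on. -/
noncomputable def side (H : SimpleGraph V) (e : Sym2 V) (x : V) : ℝ :=
  if (H.deleteEdges {e}).Reachable x e.out.1 then 1 else 0

lemma side_adj {e : Sym2 V} {a b : V} (h : H.Adj a b) (hne : s(a, b) ≠ e) :
    side H e a = side H e b := by
  have : (H.deleteEdges {e}).Adj a b := by
    rw [SimpleGraph.deleteEdges_adj]; exact ⟨h, by simpa using hne⟩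
  have iff : (H.deleteEdges {e}).Reachable a e.out.1 ↔ (H.deleteEdges {e}).Reachable b e.out.1 :=
    ⟨fun r => this.symm.reachable.trans r, fun r => this.reachable.trans r⟩
  unfold side
  simp only [iff]

lemma side_bridge (hac : H.IsAcyclic) {a b : V} (h : H.Adj a b) :
    |side H s(a, b) a - side H s(a, b) b| = 1 := by
  have hb : ¬ (H.deleteEdges {s(a, b)}).Reachable a b :=
    (SimpleGraph.isBridge_iff).1
      (SimpleGraph.isAcyclic_iff_forall_adj_isBridge.1 hac h)
  have ho : (s(a, b)).out.1 = a ∨ (s(a, b)).out.1 = b :=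
    Sym2.mem_iff.1 (Sym2.out_fst_mem _)
  unfold side
  rcases ho with ho | ho <;> rw [ho]
  · rw [if_pos (SimpleGraph.Reachable.refl a), if_neg fun r => hb r.symm]; norm_num
  · rw [if_neg hb, if_pos (SimpleGraph.Reachable.refl b)]; norm_num

lemma side_path (hac : H.IsAcyclic) : ∀ {x y : V} (p : H.Walk x y), p.IsPath →
    ∀ e, |side H e x - side H e y| = if e ∈ p.edges then 1 else 0 := by
  intro x y p
  induction p with
  | nil => intro _ e; simp
  | cons h p ih =>
    rename_i a b c
    intro hp e
    rw [SimpleGraph.Walk.cons_isPath_iff] at hp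
    have h2 := ih hp.1 e
    by_cases he : s(a, b) = e
    · subst he
      have hnot : s(a, b) ∉ p.edges := fun hm => hp.2 (p.fst_mem_support_of_mem_edges hm)
      rw [if_neg hnot, abs_eq_zero, sub_eq_zero] at h2
      rw [← h2, side_bridge hac h, if_pos (by simp)]
    · rw [side_adj h he, h2]
      simp [Ne.symm he]


/-- Forests embed isometrically into l1, component by component. -/
theorem forest_embeds (hℓ : ∀ e, 0 ≤ ℓ e) (hac : H.IsAcyclic) : EmbedsL1 H ℓ 1 := by
  let F : V → Sym2 V → ℝ := fun x e => ℓ e * side H e x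
  have key : ∀ {x y : V} (p : H.Walk x y), p.IsPath →
      ∑ e, |F x e - F y e| = walkLen ℓ p := by
    intro x y p hp
    simp only [F, ← mul_sub, abs_mul, abs_of_nonneg (hℓ _), side_path hac p hp, mul_ite, mul_one,
      mul_zero, ← Finset.sum_filter]
    rw [walkLen, ← List.sum_toFinset _ hp.isTrail.edges_nodup]
    exact Finset.sum_congr (by ext e; simp) fun _ _ => rfl
  refine embedsL1_of_fintype F fun x y hxy => ?_
  obtain ⟨p, hp⟩ := hxy.exists_isPath
  refine ⟨(gdist_le hℓ p).trans_eq (key p hp).symm, ?_⟩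
  refine lipschitz_of_edges F zero_le_one (fun a b hab => ?_) hxy
  refine ((key (SimpleGraph.Walk.cons hab SimpleGraph.Walk.nil) ?_).trans_le ?_)
  · simp [hab.ne]
  · simp [walkLen]

end Vale.Agent.P235
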