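import Vale.Agent.P235.Apex
import Vale.Agent.P235.Forest

/-!
Gluing along cut vertices preserves bounded l1 distortion, and block elimination distance.
-/

namespace Vale.Agent.P235

open Classical Finset

/-- The edges with label `i`. -/
def piece {V ι : Type*} (G : SimpleGraph V) (c : Sym2 V → ι) (i : ι) : SimpleGraph V where
  Adj x y := G.Adj x y ∧ c s(x, y) = i
  symm := ⟨fun x y h => ⟨h.1.symm, by rw [Sym2.eq_swap]; exact h.2⟩⟩
  loopless := ⟨fun _ h => h.1.ne rfl⟩

/-- All edges of every cycle have the same label, so every piece is a union of blocks. -/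
def CyclesMonochrome {V ι : Type*} (G : SimpleGraph V) (c : Sym2 V → ι) : Prop :=
  ∀ (v : V) (p : G.Walk v v), p.IsCycle → ∀ e ∈ p.edges, ∀ f ∈ p.edges, c e = c f

variable {V : Type} {ι : Type} {G : SimpleGraph V} {c : Sym2 V → ι}

lemma piece_le (i : ι) : piece G c i ≤ G := fun _ _ h => h.1

lemma piece_label (i : ι) {a b : V} (h : (piece G c i).Adj a b) : c s(a, b) = i := h.2

/-- A component of a piece. -/
abbrev Part (G : SimpleGraph V) (c : Sym2 V → ι) := Σ i, (piece G c i).ConnectedComponent

/-- The graph without the edges of one component of a piece. -/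
def avoid (K : Part G c) : SimpleGraph V where
  Adj a b := G.Adj a b ∧
    ¬ (c s(a, b) = K.1 ∧ (piece G c K.1).connectedComponentMk a = K.2)
  symm := ⟨fun a b h => ⟨h.1.symm, fun hb => h.2 (by
    have hl : c s(a, b) = K.1 := by rw [Sym2.eq_swap]; exact hb.1
    have hadj : (piece G c K.1).Adj a b := ⟨h.1, hl⟩
    exact ⟨hl, (SimpleGraph.ConnectedComponent.connectedComponentMk_eq_of_adj hadj).trans hb.2⟩)⟩⟩
  loopless := ⟨fun _ h => h.1.ne rfl⟩

lemma avoid_le (K : Part G c) : avoid K ≤ G := fun _ _ h => h.1

/-- A walk entering a set has a first vertex in it. -/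
lemma first_hit {H : SimpleGraph V} {S : Set V} : ∀ {a v : V} (q : H.Walk a v), v ∈ S →
    ∃ (w : V) (q' : H.Walk a w), w ∈ S ∧ (∀ z ∈ q'.support, z ∈ S → z = w) ∧
      ∀ z ∈ q'.support, z ∈ q.support := by
  intro a v q
  induction q with
  | nil =>
    intro h
    refine ⟨_, SimpleGraph.Walk.nil, h, fun z hz _ => by simpa using hz, fun z hz => hz⟩
  | cons hab q ih =>
    rename_i a b v
    intro h
    by_cases ha : a ∈ S
    · refine ⟨a, SimpleGraph.Walk.nil, ha, fun z hz _ => by simpa using hz, fun z hz => ?_⟩
      rw [SimpleGraph.Walk.support_nil, List.mem_singleton] at hz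
      simp [hz]
    · obtain ⟨w, q', hw, h1, h2⟩ := ih h
      refine ⟨w, SimpleGraph.Walk.cons hab q', hw, fun z hz hzS => ?_, fun z hz => ?_⟩
      · rw [SimpleGraph.Walk.support_cons, List.mem_cons] at hz
        rcases hz with rfl | hz
        · exact absurd hzS ha
        · exact h1 z hz hzS
      · rw [SimpleGraph.Walk.support_cons, List.mem_cons] at hz ⊢
        exact hz.imp_right (h2 z)

/-- Outside its own edges a component of a piece reaches itself only trivially. -/
lemma avoid_unique (hc : CyclesMonochrome G c) (K : Part G c) {u v : V}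
    (hu : (piece G c K.1).connectedComponentMk u = K.2)
    (hv : (piece G c K.1).connectedComponentMk v = K.2)
    (h : (avoid K).Reachable u v) : u = v := by
  obtain ⟨q, hq⟩ := h.exists_isPath
  rcases q with _ | ⟨hua, q⟩
  · rfl
  exfalso
  rename_i a
  rw [SimpleGraph.Walk.cons_isPath_iff] at hq
  obtain ⟨w, q', hw, h1, h2⟩ := first_hit
    (S := {z | (piece G c K.1).connectedComponentMk z = K.2}) q hv
  have huq : u ∉ q'.support := fun hm => hq.2 (h2 u hm)
  obtain ⟨r⟩ := SimpleGraph.ConnectedComponent.exact ((Eq.trans hw hu.symm))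
  set W : G.Walk a u := (q'.mapLe (avoid_le K)).append (r.mapLe (piece_le K.1)) with hW
  have hedges : ∀ e ∈ W.edges, (u ∉ e ∧ e ∈ (q'.mapLe (avoid_le K)).edges) ∨ c e = K.1 := by
    intro e he
    rw [hW, SimpleGraph.Walk.edges_append, List.mem_append] at he
    rcases he with he | he
    · refine Or.inl ⟨fun hue => huq ?_, he⟩
      rw [SimpleGraph.Walk.edges_mapLe_eq_edges] at he
      exact q'.mem_support_of_mem_edges he hue
    · rw [SimpleGraph.Walk.edges_mapLe_eq_edges] at he
      induction e using Sym2.ind with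
      | h x y => exact Or.inr (piece_label _ (r.adj_of_mem_edges he))
  set p := W.bypass with hp
  have hne : c s(u, a) ≠ K.1 := fun he => hua.2 ⟨he, hu⟩
  have hpath : p.IsPath := W.bypass_isPath
  have hsub : ∀ e ∈ p.edges, e ∈ W.edges := fun e he => W.edges_bypass_subset_edges he
  have hnot : s(u, a) ∉ p.edges := fun he => by
    rcases hedges _ (hsub _ he) with h' | h'
    · exact h'.1 (Sym2.mem_mk_left u a)
    · exact hne h'
  have hcyc : (SimpleGraph.Walk.cons hua.1 p).IsCycle :=
    (SimpleGraph.Walk.cons_isCycle_iff p hua.1).2 ⟨hpath, hnot⟩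
  obtain ⟨e, he, hue⟩ : ∃ e ∈ p.edges, u ∈ e := by
    have key : ∀ {x y : V} (s : G.Walk x y), x ≠ y → ∃ e ∈ s.edges, y ∈ e := by
      intro x y s
      induction s with
      | nil => intro h; exact absurd rfl h
      | cons hxz s ih =>
        rename_i x z y
        intro _
        rcases eq_or_ne z y with rfl | hzy
        · exact ⟨s(x, z), by simp, Sym2.mem_mk_right x z⟩
        · obtain ⟨e, he, hye⟩ := ih hzy
          exact ⟨e, by simp [he], hye⟩
    exact key p hua.1.ne.symm
  have hsame := hc u _ hcyc e (by simp [he]) s(u, a) (by simp)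
  rcases hedges e (hsub e he) with h' | h'
  · exact h'.1 hue
  · exact hne (hsame.symm.trans h')

/-- The nearest vertex of a component of a piece. -/
noncomputable def gate (K : Part G c) (x : V) : V :=
  if h : ∃ u, (piece G c K.1).connectedComponentMk u = K.2 ∧ (avoid K).Reachable x u then h.choose
  else K.2.exists_rep.choose

lemma gate_comp (K : Part G c) (x : V) :
    (piece G c K.1).connectedComponentMk (gate K x) = K.2 := by
  unfold gate
  split_ifs with h
  · exact h.choose_spec.1
  · exact K.2.exists_rep.choose_spec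

lemma gate_eq (hc : CyclesMonochrome G c) (K : Part G c) {x u : V}
    (hu : (piece G c K.1).connectedComponentMk u = K.2) (hxu : (avoid K).Reachable x u) :
    gate K x = u := by
  have h : ∃ w, (piece G c K.1).connectedComponentMk w = K.2 ∧ (avoid K).Reachable x w :=
    ⟨u, hu, hxu⟩
  rw [gate, dif_pos h]
  exact avoid_unique hc K h.choose_spec.1 hu (h.choose_spec.2.symm.trans hxu)

lemma gate_congr (K : Part G c) {x y : V} (h : (avoid K).Reachable x y) :
    gate K x = gate K y := by
  have e : (fun u => (piece G c K.1).connectedComponentMk u = K.2 ∧ (avoid K).Reachable x u) =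
      fun u => (piece G c K.1).connectedComponentMk u = K.2 ∧ (avoid K).Reachable y u :=
    funext fun u => propext (and_congr_right fun _ => ⟨h.symm.trans, h.trans⟩)
  unfold gate
  simp only [e]

/-- A walk has a last vertex in a set containing its start. -/
lemma last_hit {S : Set V} : ∀ {x y : V} (p : G.Walk x y), p.IsPath → (∃ z ∈ p.support, z ∈ S) →
    ∃ (z : V) (r : G.Walk z y), r.IsPath ∧ r.length ≤ p.length ∧ z ∈ S ∧
      ∀ t ∈ r.support, t ∈ S → t = z := by
  intro x y p
  induction p with
  | nil =>
    intro hp ⟨z, hz, hzS⟩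
    rw [SimpleGraph.Walk.support_nil, List.mem_singleton] at hz
    exact ⟨_, SimpleGraph.Walk.nil, hp, le_rfl, hz ▸ hzS, fun t ht _ => by simpa using ht⟩
  | cons hxa p ih =>
    rename_i x a y
    intro hp hex
    by_cases hrest : ∃ z ∈ p.support, z ∈ S
    · obtain ⟨z, r, h1, h2, h3⟩ := ih ((SimpleGraph.Walk.cons_isPath_iff hxa p).1 hp).1 hrest
      exact ⟨z, r, h1, h2.trans (by simp), h3⟩
    · obtain ⟨z, hz, hzS⟩ := hex
      rw [SimpleGraph.Walk.support_cons, List.mem_cons] at hz
      rcases hz with rfl | hz
      · refine ⟨z, SimpleGraph.Walk.cons hxa p, hp, le_rfl, hzS, fun t ht htS => ?_⟩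
        rw [SimpleGraph.Walk.support_cons, List.mem_cons] at ht
        exact ht.resolve_right fun h => hrest ⟨t, h, htS⟩
      · exact absurd ⟨z, hz, hzS⟩ hrest

variable {ℓ : Sym2 V → ℝ}

/-- The metric is dominated by the sum of the metrics of the pieces between the gates. -/
lemma gdist_le_parts [Fintype V] [Fintype ι] (hℓ : ∀ e, 0 ≤ ℓ e) (hc : CyclesMonochrome G c) :
    ∀ (m : ℕ) {x y : V} (p : G.Walk x y), p.IsPath → p.length ≤ m →
      gdist G ℓ x y ≤ ∑ K : Part G c, gdist (piece G c K.1) ℓ (gate K x) (gate K y) := by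
  intro m
  induction m with
  | zero =>
    intro x y p _ hlen
    obtain rfl := SimpleGraph.Walk.eq_of_length_eq_zero (Nat.le_zero.1 hlen)
    rw [gdist_self hℓ]
    exact Finset.sum_nonneg fun K _ => gdist_nonneg hℓ _ _
  | succ m ih =>
    intro x y p hp hlen
    rcases p with _ | ⟨hxa, p⟩
    · rw [gdist_self hℓ]
      exact Finset.sum_nonneg fun K _ => gdist_nonneg hℓ _ _
    rename_i a
    set i := c s(x, a) with hi
    set K₀ : Part G c := ⟨i, (piece G c i).connectedComponentMk x⟩ with hK₀
    have hadj : (piece G c i).Adj x a := ⟨hxa, rfl⟩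
    rw [SimpleGraph.Walk.cons_isPath_iff] at hp
    rw [SimpleGraph.Walk.length_cons] at hlen
    obtain ⟨z, r, hr, hrlen, hz, hlast⟩ := last_hit
      (S := {t | (piece G c i).connectedComponentMk t = (piece G c i).connectedComponentMk x})
      p hp.1 ⟨a, p.start_mem_support,
        (SimpleGraph.ConnectedComponent.connectedComponentMk_eq_of_adj hadj).symm⟩
    have hzx : (piece G c i).Reachable x z := (SimpleGraph.ConnectedComponent.exact hz).symm
    have tr : ∀ e ∈ r.edges, e ∈ (avoid K₀).edgeSet := by
      intro e he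
      induction e using Sym2.ind with
      | h u v =>
        refine ⟨r.adj_of_mem_edges he, fun hK => ?_⟩
        have hv : (piece G c i).connectedComponentMk v = (piece G c i).connectedComponentMk x := by
          have h' : (piece G c i).Adj u v := ⟨r.adj_of_mem_edges he, hK.1⟩
          exact (SimpleGraph.ConnectedComponent.connectedComponentMk_eq_of_adj h').symm.trans hK.2
        have e1 := hlast u (r.fst_mem_support_of_mem_edges he) hK.2
        have e2 := hlast v (r.snd_mem_support_of_mem_edges he) hv
        exact (r.adj_of_mem_edges he).ne (e1.trans e2.symm)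
    have gy : gate K₀ y = z := gate_eq hc K₀ hz (r.transfer (avoid K₀) tr).reachable.symm
    have gz : gate K₀ z = z := gate_eq hc K₀ hz (SimpleGraph.Reachable.refl z)
    have gx : gate K₀ x = x := gate_eq hc K₀ rfl (SimpleGraph.Reachable.refl x)
    have others : ∀ K : Part G c, K ≠ K₀ → gate K x = gate K z := by
      intro K hK
      obtain ⟨w⟩ := hzx
      refine gate_congr K ((w.transfer (avoid K) ?_).reachable)
      intro e he
      induction e using Sym2.ind with
      | h u v =>
        have huv := w.adj_of_mem_edges he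
        refine ⟨huv.1, fun hK' => hK ?_⟩
        obtain ⟨j, C⟩ := K
        obtain rfl : i = j := huv.2.symm.trans hK'.1
        have hu : (piece G c i).connectedComponentMk x = (piece G c i).connectedComponentMk u :=
          SimpleGraph.ConnectedComponent.sound
            (w.takeUntil u (w.fst_mem_support_of_mem_edges he)).reachable
        rw [hK₀]
        exact congrArg (Sigma.mk i) (hK'.2.symm.trans hu.symm)
    have hrec := ih r hr (hrlen.trans (by omega))
    have hxz : G.Reachable x z := hzx.mono (piece_le i)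
    calc gdist G ℓ x y ≤ gdist G ℓ x z + gdist G ℓ z y := gdist_triangle hℓ hxz r.reachable
      _ ≤ gdist (piece G c i) ℓ x z +
          ∑ K : Part G c, gdist (piece G c K.1) ℓ (gate K z) (gate K y) :=
        add_le_add (gdist_mono hℓ (piece_le i) hzx) hrec
      _ = ∑ K : Part G c, gdist (piece G c K.1) ℓ (gate K x) (gate K y) := by
        rw [← Finset.add_sum_erase _ _ (Finset.mem_univ K₀),
          ← Finset.add_sum_erase _ (fun K : Part G c =>
            gdist (piece G c K.1) ℓ (gate K x) (gate K y)) (Finset.mem_univ K₀)]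
        have e1 : ∑ K ∈ univ.erase K₀, gdist (piece G c K.1) ℓ (gate K z) (gate K y) =
            ∑ K ∈ univ.erase K₀, gdist (piece G c K.1) ℓ (gate K x) (gate K y) :=
          Finset.sum_congr rfl fun K hK => by rw [others K (Finset.mem_erase.1 hK).1]
        rw [e1, gx, gy, gz, gdist_self hℓ, zero_add]

/-- Gluing along cut vertices preserves the l1 distortion. -/
theorem block_embeds [Fintype V] [Fintype ι] (hℓ : ∀ e, 0 ≤ ℓ e) (hc : CyclesMonochrome G c)
    {C : ℝ} (hC : 0 ≤ C) (h : ∀ i, EmbedsL1 (piece G c i) ℓ C) : EmbedsL1 G ℓ C := by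
  choose N f hf using h
  refine embedsL1_of_fintype (ι := Σ K : Part G c, Fin (N K.1))
    (fun x p => f p.1.1 (gate p.1 x) p.2) fun x y hxy => ?_
  refine ⟨?_, lipschitz_of_edges
    (fun x (p : Σ K : Part G c, Fin (N K.1)) => f p.1.1 (gate p.1 x) p.2) hC (fun a b hab => ?_) hxy⟩
  · obtain ⟨p, hp⟩ := hxy.exists_isPath
    rw [Fintype.sum_sigma]
    exact (gdist_le_parts hℓ hc _ p hp le_rfl).trans (Finset.sum_le_sum fun K _ =>
      (hf K.1 _ _ (SimpleGraph.ConnectedComponent.exact
        ((gate_comp K x).trans (gate_comp K y).symm))).1)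
  · set i := c s(a, b) with hi
    set K₀ : Part G c := ⟨i, (piece G c i).connectedComponentMk a⟩ with hK₀
    have hadj : (piece G c i).Adj a b := ⟨hab, rfl⟩
    rw [Fintype.sum_sigma, Finset.sum_eq_single K₀]
    · have ga : gate K₀ a = a := gate_eq hc K₀ rfl (SimpleGraph.Reachable.refl a)
      have gb : gate K₀ b = b := gate_eq hc K₀
        (SimpleGraph.ConnectedComponent.connectedComponentMk_eq_of_adj hadj).symm
        (SimpleGraph.Reachable.refl b)
      simp only [ga, gb]
      exact ((hf i a b hadj.reachable).2).trans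
        (mul_le_mul_of_nonneg_left (gdist_adj hℓ hadj) hC)
    · intro K _ hK
      have hav : (avoid K).Adj a b := ⟨hab, fun hK' => hK (by
        obtain ⟨j, D⟩ := K
        obtain rfl : i = j := hK'.1
        rw [hK₀]
        exact congrArg (Sigma.mk i) hK'.2.symm)⟩
      simp [gate_congr K hav.reachable]
    · simp

/-- Graphs obtained from forests in `r` rounds, each round gluing along cut vertices pieces
that lose their structure on deleting at most `k` vertices per component: the edges are labelled
so that every cycle has one label, and every labelled piece reaches the previous round by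
deleting at most `k` vertices in each of its components. -/
def BlockElim {V : Type} (k : ℕ) : ℕ → SimpleGraph V → Prop
  | 0, G => G.IsAcyclic
  | r + 1, G => ∃ c : Sym2 V → Sym2 V, CyclesMonochrome G c ∧
      ∀ i, ∃ A : Set V,
        (∀ K : (piece G c i).ConnectedComponent, ∀ s : Finset V,
          (∀ a ∈ s, a ∈ A ∧ (piece G c i).connectedComponentMk a = K) → s.card ≤ k) ∧
        BlockElim k r (removeVerts (piece G c i) A)

/-- Bounded block elimination distance gives bounded l1 distortion. -/
theorem blockElim_embeds [Fintype V] (hℓ : ∀ e, 0 ≤ ℓ e) (k : ℕ) :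
    ∀ r : ℕ, ∀ G : SimpleGraph V, BlockElim k r G → EmbedsL1 G ℓ ((400 * (k + 1)) ^ r) := by
  intro r
  induction r with
  | zero => intro G h; simpa using forest_embeds hℓ h
  | succ r ih =>
    rintro G ⟨c, hc, h⟩
    refine block_embeds hℓ hc (by positivity) fun i => ?_
    obtain ⟨A, hA, hr⟩ := h i
    obtain ⟨N, f, hf⟩ := apex_embeds hℓ A
      (fun K => hA K _ fun a ha => (Finset.mem_filter.1 ha).2) (by positivity) (ih _ hr)
    refine ⟨N, f, fun x y hxy => ⟨(hf x y hxy).1, (hf x y hxy).2.trans ?_⟩⟩
    refine mul_le_mul_of_nonneg_right ?_ (gdist_nonneg hℓ x y)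
    set P : ℝ := (400 * ((k : ℝ) + 1)) ^ r with hP
    have hk : (0 : ℝ) ≤ k := Nat.cast_nonneg k
    have hP1 : 1 ≤ P := one_le_pow₀ (by linarith)
    rw [pow_succ', ← hP]
    nlinarith

/-- Edgeless graphs have every block elimination distance. -/
theorem blockElim_bot (k : ℕ) (e₀ : Sym2 V) : ∀ r : ℕ, BlockElim k r (⊥ : SimpleGraph V)
  | 0 => SimpleGraph.isAcyclic_bot
  | r + 1 => by
    refine ⟨fun _ => e₀, fun _ _ _ _ _ _ _ => rfl, fun i => ⟨∅, fun K s hs => ?_, ?_⟩⟩
    · rw [Finset.eq_empty_of_forall_notMem fun a ha => (hs a ha).1]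
      simp
    · have e : removeVerts (piece (⊥ : SimpleGraph V) (fun _ => e₀) i) ∅ = ⊥ := by
        ext; simp [removeVerts, piece]
      rw [e]
      exact blockElim_bot k e₀ r

/-- Bounded elimination distance to forests is a special case. -/
theorem blockElim_of_elim {k : ℕ} : ∀ {r : ℕ} {G : SimpleGraph V}, ElimToForest k r G →
    ∀ (e₀ : Sym2 V), BlockElim k r G := by
  intro r
  induction r with
  | zero => intro G h _; exact h
  | succ r ih =>
    rintro G ⟨A, hA, hr⟩ e₀
    refine ⟨fun _ => e₀, fun _ _ _ _ _ _ _ => rfl, fun i => ?_⟩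
    by_cases hi : e₀ = i
    · subst hi
      have e : piece G (fun _ => e₀) e₀ = G := by ext; simp [piece]
      exact ⟨A, by rw [e]; exact hA, by rw [e]; exact ih hr e₀⟩
    · refine ⟨∅, fun K s hs => ?_, ?_⟩
      · rw [Finset.eq_empty_of_forall_notMem fun a ha => (hs a ha).1]
        simp
      · have e : removeVerts (piece G (fun _ => e₀) i) ∅ = ⊥ := by
          ext; simp [removeVerts, piece, hi]
        rw [e]
        exact blockElim_bot k e₀ r

end Vale.Agent.P235
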