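import Mathlib

namespace Vale.Agent.P235

open Classical Finset

variable {V : Type*}

/-- Total length of a walk. -/
noncomputable def walkLen {G : SimpleGraph V} (ℓ : Sym2 V → ℝ) {x y : V} (p : G.Walk x y) : ℝ :=
  (p.edges.map ℓ).sum

/-- Shortest-path distance for edge lengths `ℓ`. -/
noncomputable def gdist (G : SimpleGraph V) (ℓ : Sym2 V → ℝ) (x y : V) : ℝ :=
  ⨅ p : G.Walk x y, walkLen ℓ p

/-- The graph with all edges at vertices of `A` removed. -/
def removeVerts (G : SimpleGraph V) (A : Set V) : SimpleGraph V where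
  Adj x y := G.Adj x y ∧ x ∉ A ∧ y ∉ A
  symm := ⟨fun _ _ h => ⟨h.1.symm, h.2.2, h.2.1⟩⟩
  loopless := ⟨fun _ h => h.1.ne rfl⟩

/-- Every component, with its path metric, embeds into a finite dimensional l1 space
with distortion at most `C`. -/
def EmbedsL1 (G : SimpleGraph V) (ℓ : Sym2 V → ℝ) (C : ℝ) : Prop :=
  ∃ (N : ℕ) (f : V → Fin N → ℝ), ∀ x y, G.Reachable x y →
    gdist G ℓ x y ≤ ∑ i, |f x i - f y i| ∧ ∑ i, |f x i - f y i| ≤ C * gdist G ℓ x y

variable {G : SimpleGraph V} {ℓ : Sym2 V → ℝ}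

lemma walkLen_nil (x : V) : walkLen ℓ (SimpleGraph.Walk.nil : G.Walk x x) = 0 := by
  simp [walkLen]

lemma walkLen_cons {x y z : V} (h : G.Adj x y) (p : G.Walk y z) :
    walkLen ℓ (SimpleGraph.Walk.cons h p) = ℓ s(x, y) + walkLen ℓ p := by
  simp [walkLen]

lemma walkLen_append {x y z : V} (p : G.Walk x y) (q : G.Walk y z) :
    walkLen ℓ (p.append q) = walkLen ℓ p + walkLen ℓ q := by
  simp [walkLen, SimpleGraph.Walk.edges_append]

lemma walkLen_reverse {x y : V} (p : G.Walk x y) : walkLen ℓ p.reverse = walkLen ℓ p := by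
  simp [walkLen, SimpleGraph.Walk.edges_reverse, List.sum_reverse]

variable (hℓ : ∀ e, 0 ≤ ℓ e)
include hℓ

lemma walkLen_nonneg {x y : V} (p : G.Walk x y) : 0 ≤ walkLen ℓ p := by
  apply List.sum_nonneg
  intro a ha
  obtain ⟨e, -, rfl⟩ := List.mem_map.1 ha
  exact hℓ e

lemma gdist_le {x y : V} (p : G.Walk x y) : gdist G ℓ x y ≤ walkLen ℓ p :=
  ciInf_le ⟨0, by rintro _ ⟨q, rfl⟩; exact walkLen_nonneg hℓ q⟩ p

lemma gdist_nonneg (x y : V) : 0 ≤ gdist G ℓ x y :=
  Real.iInf_nonneg (walkLen_nonneg hℓ)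

lemma gdist_self (x : V) : gdist G ℓ x x = 0 :=
  le_antisymm ((gdist_le hℓ SimpleGraph.Walk.nil).trans (by simp [walkLen_nil]))
    (gdist_nonneg hℓ x x)

omit hℓ in
lemma le_gdist {x y : V} (h : G.Reachable x y) {c : ℝ} (H : ∀ p : G.Walk x y, c ≤ walkLen ℓ p) :
    c ≤ gdist G ℓ x y :=
  haveI : Nonempty (G.Walk x y) := h
  le_ciInf H

lemma gdist_comm {x y : V} (h : G.Reachable x y) : gdist G ℓ x y = gdist G ℓ y x := by
  refine le_antisymm (le_gdist h.symm fun p => ?_) (le_gdist h fun p => ?_)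
  · rw [← walkLen_reverse p]; exact gdist_le hℓ _
  · rw [← walkLen_reverse p]; exact gdist_le hℓ _

lemma gdist_triangle {x y z : V} (h1 : G.Reachable x y) (h2 : G.Reachable y z) :
    gdist G ℓ x z ≤ gdist G ℓ x y + gdist G ℓ y z := by
  have : gdist G ℓ x z - gdist G ℓ y z ≤ gdist G ℓ x y := by
    refine le_gdist h1 fun p => ?_
    have : gdist G ℓ x z - walkLen ℓ p ≤ gdist G ℓ y z := by
      refine le_gdist h2 fun q => ?_
      have := gdist_le hℓ (p.append q)
      rw [walkLen_append] at this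
      linarith
    linarith
  linarith

lemma gdist_adj {x y : V} (h : G.Adj x y) : gdist G ℓ x y ≤ ℓ s(x, y) :=
  (gdist_le hℓ (SimpleGraph.Walk.cons h SimpleGraph.Walk.nil)).trans (by simp [walkLen])

lemma gdist_mono {H : SimpleGraph V} (hle : H ≤ G) {x y : V} (h : H.Reachable x y) :
    gdist G ℓ x y ≤ gdist H ℓ x y := by
  refine le_gdist h fun p => ?_
  refine (gdist_le hℓ (p.mapLe hle)).trans (le_of_eq ?_)
  simp [walkLen, SimpleGraph.Walk.edges_mapLe_eq_edges]

omit hℓ in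
/-- A map that is Lipschitz on every edge is Lipschitz for the path metric. -/
lemma lipschitz_of_edges {ι : Type*} [Fintype ι] (F : V → ι → ℝ) {K : ℝ} (hK : 0 ≤ K)
    (hedge : ∀ x y, G.Adj x y → ∑ i, |F x i - F y i| ≤ K * ℓ s(x, y))
    {x y : V} (h : G.Reachable x y) : ∑ i, |F x i - F y i| ≤ K * gdist G ℓ x y := by
  have key : ∀ {u v : V} (p : G.Walk u v), ∑ i, |F u i - F v i| ≤ K * walkLen ℓ p := by
    intro u v p
    induction p with
    | nil => simp [walkLen]
    | cons h p ih =>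
      rename_i a b c
      rw [walkLen_cons, mul_add]
      refine le_trans ?_ (add_le_add (hedge a b h) ih)
      rw [← Finset.sum_add_distrib]
      exact Finset.sum_le_sum fun i _ => abs_sub_le _ _ _
  rcases eq_or_lt_of_le hK with rfl | hKpos
  · obtain ⟨p⟩ := h
    simpa using key p
  · have := le_gdist (ℓ := ℓ) h (c := (∑ i, |F x i - F y i|) / K) fun p => by
      rw [div_le_iff₀ hKpos]; linarith [key p]
    rw [div_le_iff₀ hKpos] at this
    linarith

omit hℓ in
/-- Re-index a finite coordinate set by `Fin N`. -/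
lemma embedsL1_of_fintype {ι : Type*} [Fintype ι] {C : ℝ} (F : V → ι → ℝ)
    (h : ∀ x y, G.Reachable x y →
      gdist G ℓ x y ≤ ∑ i, |F x i - F y i| ∧ ∑ i, |F x i - F y i| ≤ C * gdist G ℓ x y) :
    EmbedsL1 G ℓ C := by
  refine ⟨Fintype.card ι, fun x j => F x ((Fintype.equivFin ι).symm j), fun x y hxy => ?_⟩
  have e : ∑ j, |F x ((Fintype.equivFin ι).symm j) - F y ((Fintype.equivFin ι).symm j)|
      = ∑ i, |F x i - F y i| :=
    Equiv.sum_comp (Fintype.equivFin ι).symm (fun i => |F x i - F y i|)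
  simpa only [e] using h x y hxy

end Vale.Agent.P235
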