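import Vale.Agent.P235.Metric

/-!
P235: metrics on series-parallel networks embed into l1 with distortion 54.

The cut measure is glued along the networks so that the two sides of a shared pair are independent
given whether the pair is separated. For a vertex `x` of a network with terminals `p`, `q` at
distance `D`, let `al` be the mass separating `x` from both terminals and `lam` the probability of
the side of `q` given that they are separated; the invariant is
`d x p ≤ 9 al + min (3 lam) (1 + 3 (1 - lam)) D` and its mirror image.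
-/

namespace Vale.Agent.P235

open Classical Finset

variable {V : Type}

/-- Series-parallel networks with terminals `p` and `q`, vertex set `S` and pairs `E`; the pair of
the terminals is always included. -/
inductive Net : V → V → Finset V → Finset (Sym2 V) → Prop
  | edge (p q : V) (h : p ≠ q) : Net p q {p, q} {s(p, q)}
  | series (p y q : V) (S T : Finset V) (E F : Finset (Sym2 V)) : p ≠ q → Net p y S E →
      Net y q T F → S ∩ T = {y} → Net p q (S ∪ T) (insert s(p, q) (E ∪ F))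
  | parallel (p q : V) (S T : Finset V) (E F : Finset (Sym2 V)) : Net p q S E → Net p q T F →
      S ∩ T = {p, q} → Net p q (S ∪ T) (E ∪ F)

lemma Net.ends {p q : V} {S : Finset V} {E : Finset (Sym2 V)} (h : Net p q S E) :
    p ∈ S ∧ q ∈ S ∧ p ≠ q := by
  induction h with
  | edge p q h => simp [h]
  | series p y q S T E F h _ _ _ ih1 ih2 =>
    exact ⟨mem_union_left _ ih1.1, mem_union_right _ ih2.2.1, h⟩
  | parallel p q S T E F _ _ _ ih1 _ =>
    exact ⟨mem_union_left _ ih1.1, mem_union_left _ ih1.2.1, ih1.2.2⟩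

lemma Net.pairs {p q : V} {S : Finset V} {E : Finset (Sym2 V)} (h : Net p q S E) :
    ∀ u v, s(u, v) ∈ E → u ∈ S ∧ v ∈ S := by
  induction h with
  | edge p q h =>
    intro u v huv
    simp only [mem_singleton, Sym2.eq_iff] at huv
    rcases huv with ⟨rfl, rfl⟩ | ⟨rfl, rfl⟩ <;> simp
  | series p y q S T E F h h1 h2 _ ih1 ih2 =>
    intro u v huv
    simp only [mem_insert, mem_union, Sym2.eq_iff] at huv
    rcases huv with (⟨rfl, rfl⟩ | ⟨rfl, rfl⟩) | he | hf
    · exact ⟨mem_union_left _ h1.ends.1, mem_union_right _ h2.ends.2.1⟩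
    · exact ⟨mem_union_right _ h2.ends.2.1, mem_union_left _ h1.ends.1⟩
    · exact ⟨mem_union_left _ (ih1 u v he).1, mem_union_left _ (ih1 u v he).2⟩
    · exact ⟨mem_union_right _ (ih2 u v hf).1, mem_union_right _ (ih2 u v hf).2⟩
  | parallel p q S T E F _ _ _ ih1 ih2 =>
    intro u v huv
    rcases mem_union.1 huv with he | hf
    · exact ⟨mem_union_left _ (ih1 u v he).1, mem_union_left _ (ih1 u v he).2⟩
    · exact ⟨mem_union_right _ (ih2 u v hf).1, mem_union_right _ (ih2 u v hf).2⟩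

/-- Weighted inner product of the coordinates at two points. -/
noncomputable def gram {ι : Type} [Fintype ι] (w : ι → ℝ) (χ : ι → V → ℝ) (x z : V) : ℝ :=
  ∑ i, w i * (χ i x * χ i z)

/-- Weighted mass of the coordinates separating two points. -/
noncomputable def sepMass {ι : Type} [Fintype ι] (w : ι → ℝ) (χ : ι → V → ℝ) (x z : V) : ℝ :=
  gram w χ x x + gram w χ z z - 2 * gram w χ x z

lemma sepMass_eq_sum_abs {ι : Type} [Fintype ι] {w : ι → ℝ} {χ : ι → V → ℝ}
    (hw : ∀ i, 0 ≤ w i) (h : ∀ i x, χ i x = 0 ∨ χ i x = 1) (x z : V) :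
    sepMass w χ x z = ∑ i, |w i * χ i x - w i * χ i z| := by
  simp only [sepMass, gram, Finset.mul_sum, ← Finset.sum_add_distrib, ← Finset.sum_sub_distrib]
  refine Finset.sum_congr rfl fun i _ => ?_
  rw [← mul_sub, abs_mul, abs_of_nonneg (hw i)]
  rcases h i x with h1 | h1 <;> rcases h i z with h2 | h2 <;> rw [h1, h2] <;> norm_num <;> ring

lemma sepMass_nonneg {ι : Type} [Fintype ι] {w : ι → ℝ} {χ : ι → V → ℝ}
    (hw : ∀ i, 0 ≤ w i) (h : ∀ i x, χ i x = 0 ∨ χ i x = 1) (x z : V) : 0 ≤ sepMass w χ x z := by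
  rw [sepMass_eq_sum_abs hw h]
  exact Finset.sum_nonneg fun i _ => abs_nonneg _

/-- The profile of the invariant. -/
noncomputable def prof (t : ℝ) : ℝ := min (3 * t) (1 + 3 * (1 - t))

lemma prof_le_left (t : ℝ) : prof t ≤ 3 * t := min_le_left _ _

lemma prof_le_right (t : ℝ) : prof t ≤ 1 + 3 * (1 - t) := min_le_right _ _

/-- A point on the near child pair. -/
lemma near_step {X A t l α D : ℝ} (ht : 0 ≤ t) (hl : 0 ≤ l) (hl1 : l ≤ 1) (hα : 0 ≤ α)
    (hD : 0 ≤ D) (hX : X ≤ 9 * A + prof t * (α + l * D)) :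
    X ≤ 9 * (A + α * t) + prof (l * t) * D := by
  have h1 : prof t * α ≤ 9 * (α * t) := by
    have := mul_le_mul_of_nonneg_right (prof_le_left t) hα
    nlinarith [mul_nonneg hα ht]
  have h2 : prof t * l ≤ prof (l * t) := by
    refine le_min ?_ ?_
    · linarith [mul_le_mul_of_nonneg_right (prof_le_left t) hl]
    · linarith [mul_le_mul_of_nonneg_right (prof_le_right t) hl]
  linarith [mul_le_mul_of_nonneg_right h2 hD]

/-- A point on the far child pair. -/
lemma far_step {X A t l α D : ℝ} (ht1 : t ≤ 1) (hl : 0 ≤ l) (hl1 : l ≤ 1)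
    (hα : 0 ≤ α) (hD : 0 ≤ D)
    (h1 : X ≤ 9 * A + prof t * (α + (1 - l) * D) + (α + l * D))
    (h2 : X ≤ 9 * A + prof (1 - t) * (α + (1 - l) * D) + D) :
    X ≤ 9 * (A + α * (1 - t)) + prof (l + (1 - l) * t) * D := by
  have hb : 0 ≤ α + (1 - l) * D := by
    have := mul_nonneg (sub_nonneg.2 hl1) hD
    linarith
  rcases le_total t (2 / 3) with hc | hc
  · have hp := mul_le_mul_of_nonneg_right (prof_le_left t) hb
    have hq : 3 * t * (1 - l) + l ≤ prof (l + (1 - l) * t) := by
      refine le_min ?_ ?_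
      · linarith
      · have := mul_le_mul_of_nonneg_left hc (sub_nonneg.2 hl1)
        linarith
    have hqD := mul_le_mul_of_nonneg_right hq hD
    have ha : α * (1 + 3 * t) ≤ α * (9 * (1 - t)) := mul_le_mul_of_nonneg_left (by linarith) hα
    linarith
  · have hp := mul_le_mul_of_nonneg_right (prof_le_left (1 - t)) hb
    have hq : 3 * (1 - t) * (1 - l) + 1 ≤ prof (l + (1 - l) * t) := by
      refine le_min ?_ ?_
      · have := mul_le_mul_of_nonneg_left hc (sub_nonneg.2 hl1)
        linarith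
      · linarith
    have hqD := mul_le_mul_of_nonneg_right hq hD
    have ha : 0 ≤ α * (1 - t) := mul_nonneg hα (sub_nonneg.2 ht1)
    linarith

/-- Two points on different child pairs of a triangle. -/
lemma cross_step {X A t s l α D : ℝ} (ht : 0 ≤ t) (ht1 : t ≤ 1) (hs : 0 ≤ s) (hs1 : s ≤ 1)
    (hl : 0 ≤ l) (hl1 : l ≤ 1) (hα : 0 ≤ α) (hD : 0 ≤ D) (hA : 0 ≤ A)
    (hy : X ≤ 9 * A + 3 * (1 - t) * (α + l * D) + 3 * (1 - s) * (α + (1 - l) * D))
    (hp : X ≤ 9 * A + 3 * t * (α + l * D) + 9 * (α * s) + 4 * D) :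
    X ≤ 54 * (A + α * (t + s - 2 * t * s) + D * (l * (1 - t) + (1 - l) * (1 - s))) := by
  have hl' : 0 ≤ 1 - l := sub_nonneg.2 hl1
  have g1 : 0 ≤ D * (l * (1 - t)) := mul_nonneg hD (mul_nonneg hl (sub_nonneg.2 ht1))
  have g2 : 0 ≤ D * ((1 - l) * (1 - s)) := mul_nonneg hD (mul_nonneg hl' (sub_nonneg.2 hs1))
  by_cases hsmall : t ≤ 1 / 3 ∧ s ≤ 1 / 3
  · obtain ⟨htt, hss⟩ := hsmall
    have h1 : 2 / 3 * (t + s) ≤ t + s - 2 * t * s := by
      nlinarith [mul_le_mul_of_nonneg_left hss ht, mul_le_mul_of_nonneg_right htt hs]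
    have h2 : 2 / 3 ≤ l * (1 - t) + (1 - l) * (1 - s) := by
      nlinarith [mul_le_mul_of_nonneg_left (show 2 / 3 ≤ 1 - t by linarith) hl,
        mul_le_mul_of_nonneg_left (show 2 / 3 ≤ 1 - s by linarith) hl']
    have k1 := mul_le_mul_of_nonneg_left h1 hα
    have k2 := mul_le_mul_of_nonneg_left h2 hD
    have k3 : t * l * D ≤ D := mul_le_of_le_one_left hD (mul_le_one₀ ht1 hl hl1)
    linarith [mul_nonneg hα ht, mul_nonneg hα hs]
  · have h1 : 2 - t - s ≤ 18 * (t + s - 2 * t * s) := by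
      rw [not_and_or, not_le, not_le] at hsmall
      rcases hsmall with h | h
      · rcases le_total s (2 / 3) with hc | hc
        · nlinarith [mul_le_mul h.le (show 1 / 3 ≤ 1 - s by linarith) (by norm_num) ht,
            mul_nonneg hs (sub_nonneg.2 ht1)]
        · nlinarith [mul_le_mul_of_nonneg_right h.le (sub_nonneg.2 hs1),
            mul_le_mul_of_nonneg_right hc (sub_nonneg.2 ht1)]
      · rcases le_total t (2 / 3) with hc | hc
        · nlinarith [mul_le_mul h.le (show 1 / 3 ≤ 1 - t by linarith) (by norm_num) hs,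
            mul_nonneg ht (sub_nonneg.2 hs1)]
        · nlinarith [mul_le_mul_of_nonneg_right h.le (sub_nonneg.2 ht1),
            mul_le_mul_of_nonneg_right hc (sub_nonneg.2 hs1)]
    have k1 := mul_le_mul_of_nonneg_left h1 hα
    linarith

/-- Two points in parallel networks. -/
lemma parallel_step {X A t s D : ℝ} (ht : 0 ≤ t) (ht1 : t ≤ 1) (hs : 0 ≤ s) (hs1 : s ≤ 1)
    (hD : 0 ≤ D) (hA : 0 ≤ A) (hp : X ≤ 9 * A + 3 * (t + s) * D)
    (hq : X ≤ 9 * A + 3 * (2 - t - s) * D) :
    X ≤ 54 * (A + (t + s - 2 * t * s) * D) := by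
  rcases le_total (t + s) 1 with h | h
  · have h1 : t + s ≤ 2 * (t + s - 2 * t * s) := by nlinarith [sq_nonneg (t - s)]
    nlinarith [mul_le_mul_of_nonneg_right h1 hD]
  · have h1 : 2 - t - s ≤ 2 * (t + s - 2 * t * s) := by nlinarith [sq_nonneg (t - s)]
    nlinarith [mul_le_mul_of_nonneg_right h1 hD]

/-- A cut measure on a network: `w` the cuts leaving the terminals together, `π` the distribution
of the side of `q` when they are separated. -/
def IsModel (d : V → V → ℝ) (p q : V) (S : Finset V) (E : Finset (Sym2 V)) : Prop :=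
  ∃ (ι κ : Type) (_ : Fintype ι) (_ : Fintype κ) (w : ι → ℝ) (π : κ → ℝ)
    (χ : ι → V → ℝ) (ψ : κ → V → ℝ),
    (∀ i, 0 ≤ w i) ∧ (∀ j, 0 ≤ π j) ∧ (∑ j, π j = 1) ∧
    (∀ i x, χ i x = 0 ∨ χ i x = 1) ∧ (∀ j x, ψ j x = 0 ∨ ψ j x = 1) ∧
    (∀ i x, x ∉ S → χ i x = 0) ∧ (∀ j x, x ∉ S → ψ j x = 0) ∧
    (∀ i, χ i p = 0 ∧ χ i q = 0) ∧ (∀ j, ψ j p = 0 ∧ ψ j q = 1) ∧
    (∀ u v, s(u, v) ∈ E → sepMass w χ u v + d p q * sepMass π ψ u v = d u v) ∧
    (∀ x ∈ S, d x p ≤ 9 * gram w χ x x + prof (gram π ψ x x) * d p q ∧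
      d x q ≤ 9 * gram w χ x x + prof (1 - gram π ψ x x) * d p q) ∧
    ∀ x ∈ S, ∀ z ∈ S, d x z ≤ 54 * (sepMass w χ x z + d p q * sepMass π ψ x z)

lemma gram_self_mem_unit {κ : Type} [Fintype κ] {π : κ → ℝ} {ψ : κ → V → ℝ}
    (hπ : ∀ j, 0 ≤ π j) (hsum : ∑ j, π j = 1) (h : ∀ j x, ψ j x = 0 ∨ ψ j x = 1) (x : V) :
    0 ≤ gram π ψ x x ∧ gram π ψ x x ≤ 1 := by
  refine ⟨Finset.sum_nonneg fun j _ => mul_nonneg (hπ j) (mul_self_nonneg _), hsum ▸ ?_⟩
  refine Finset.sum_le_sum fun j _ => ?_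
  rcases h j x with h1 | h1 <;> simp [h1, hπ j]

lemma gram_self_nonneg {ι : Type} [Fintype ι] {w : ι → ℝ} (hw : ∀ i, 0 ≤ w i) (χ : ι → V → ℝ)
    (x : V) : 0 ≤ gram w χ x x :=
  Finset.sum_nonneg fun i _ => mul_nonneg (hw i) (mul_self_nonneg _)

lemma gram_self_eq {ι : Type} [Fintype ι] (w : ι → ℝ) {χ : ι → V → ℝ}
    (h : ∀ i x, χ i x = 0 ∨ χ i x = 1) (x : V) : gram w χ x x = ∑ i, w i * χ i x :=
  Finset.sum_congr rfl fun i _ => by rcases h i x with h1 | h1 <;> simp [h1]

lemma gram_eq_zero {ι : Type} [Fintype ι] (w : ι → ℝ) {χ : ι → V → ℝ} {x z : V}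
    (h : ∀ i, χ i x = 0 ∨ χ i z = 0) : gram w χ x z = 0 :=
  Finset.sum_eq_zero fun i _ => by rcases h i with h1 | h1 <;> simp [h1]

lemma gram_sum {ι ι' : Type} [Fintype ι] [Fintype ι'] (w : ι → ℝ) (w' : ι' → ℝ)
    (χ : ι → V → ℝ) (χ' : ι' → V → ℝ) (x z : V) :
    gram (Sum.elim w w') (Sum.elim χ χ') x z = gram w χ x z + gram w' χ' x z :=
  Fintype.sum_sum_type _

lemma gram_const_mul {ι : Type} [Fintype ι] (a : ℝ) (w : ι → ℝ) (χ : ι → V → ℝ) (x z : V) :
    gram (fun i => a * w i) χ x z = a * gram w χ x z := by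
  simp only [gram, Finset.mul_sum, mul_assoc]

lemma sum_prod_factor {κ κ' : Type} [Fintype κ] [Fintype κ'] (π f : κ → ℝ) (π' g : κ' → ℝ) :
    ∑ j : κ × κ', π j.1 * π' j.2 * (f j.1 * g j.2) = (∑ j, π j * f j) * ∑ j, π' j * g j := by
  rw [Finset.sum_mul_sum, Fintype.sum_prod_type]
  exact Finset.sum_congr rfl fun _ _ => Finset.sum_congr rfl fun _ _ => by ring

variable {d : V → V → ℝ}

theorem net_model (h0 : ∀ x, d x x = 0) (hc : ∀ x y, d x y = d y x)
    (htri : ∀ x y z, d x z ≤ d x y + d y z) {p q : V} {S : Finset V} {E : Finset (Sym2 V)}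
    (h : Net p q S E) : IsModel d p q S E := by
  have dn : ∀ x y, 0 ≤ d x y := fun x y => by linarith [htri x y x, h0 x, hc x y]
  induction h with
  | edge p q hpq =>
    refine ⟨Empty, Unit, inferInstance, inferInstance, Empty.elim, fun _ => 1, fun i => i.elim,
      fun _ x => if x = q then 1 else 0, fun i => i.elim, fun _ => zero_le_one, by simp,
      fun i => i.elim, fun _ x => (Classical.em (x = q)).symm.imp (fun h => if_neg h) (fun h => if_pos h),
      fun i => i.elim, fun _ x hx => if_neg fun h => hx (by simp [h]), fun i => i.elim,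
      fun _ => ⟨if_neg hpq, if_pos rfl⟩, ?_, ?_, ?_⟩
    · intro u v huv
      simp only [mem_singleton, Sym2.eq_iff] at huv
      rcases huv with ⟨rfl, rfl⟩ | ⟨rfl, rfl⟩ <;> simp [sepMass, gram, hpq, hc]
    · intro x hx
      simp only [mem_insert, mem_singleton] at hx
      rcases hx with rfl | rfl
      · simp [gram, prof, hpq, h0]
        norm_num
      · simp [gram, prof, h0, hc]
        norm_num
    · intro x hx z hz
      simp only [mem_insert, mem_singleton] at hx hz
      have hne : ∀ u v, d u v ≤ 54 * d u v := fun u v => by linarith [dn u v]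
      rcases hx with rfl | rfl <;> rcases hz with rfl | rfl <;>
        simp [sepMass, gram, hpq, h0, hc, hne] <;> norm_num
  | series p y q S T E F hpq hS hT hST ih1 ih2 =>
    obtain ⟨ι1, κ1, _, _, w1, π1, χ1, ψ1, hw1, hπ1, hπs1, hχ1, hψ1, cs1, ps1, ce1, pe1,
      hE1, hb1, hp1⟩ := ih1
    obtain ⟨ι2, κ2, _, _, w2, π2, χ2, ψ2, hw2, hπ2, hπs2, hχ2, hψ2, cs2, ps2, ce2, pe2,
      hE2, hb2, hp2⟩ := ih2
    have meq : ∀ x, x ∈ S ∧ x ∈ T ↔ x = y := fun x => by
      rw [← mem_inter, hST, mem_singleton]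
    set D := d p q with hDdef
    set l := (d p y + D - d y q) / (2 * D) with hl
    set α := (d p y + d y q - D) / 2 with hα
    have hD : 0 ≤ D := dn p q
    have hα0 : 0 ≤ α := by rw [hα]; linarith [htri p y q]
    have hl0 : 0 ≤ l := div_nonneg (by linarith [htri y p q, hc p y]) (by linarith)
    have hl1 : l ≤ 1 := div_le_one_of_le₀ (by linarith [htri p q y, hc y q]) (by linarith)
    have hlD : l * D = (d p y + D - d y q) / 2 := by
      rcases hD.eq_or_lt with h | h
      · rw [← h]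
        have h1 := htri p q y
        have h2 := htri y p q
        rw [hc q y] at h1
        rw [hc y p] at h2
        linarith
      · rw [hl]; field_simp
    have ea : d p y = α + l * D := by rw [hlD, hα]; ring
    have eb : d y q = α + (1 - l) * D := by
      rw [sub_mul, one_mul, hlD, hα]; ring
    set g : V → ℝ := fun x => if x ∈ T ∧ x ∉ S then 1 else 0 with hg
    set w3 : κ1 × κ2 → ℝ := fun j => α * (π1 j.1 * π2 j.2) with hw3
    set χ3 : κ1 × κ2 → V → ℝ := fun j x => ψ1 j.1 x + g x * (1 - ψ2 j.2 x) with hχ3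
    set ψa : κ1 → V → ℝ := fun j x => ψ1 j x + g x with hψa
    set W := Sum.elim (Sum.elim w1 w2) w3 with hW
    set X := Sum.elim (Sum.elim χ1 χ2) χ3 with hX
    set P := Sum.elim (fun j => l * π1 j) (fun j => (1 - l) * π2 j) with hP
    set Y := Sum.elim ψa ψ2 with hY
    have gS : ∀ x ∈ S, g x = 0 := fun x hx => by simp [hg, hx]
    have gT : ∀ x ∈ T, x ∉ S → g x = 1 := fun x h1 h2 => by simp [hg, h1, h2]
    have S2 : ∀ x ∈ S, (∀ i, χ2 i x = 0) ∧ ∀ j, ψ2 j x = 0 := fun x hx => by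
      by_cases hT' : x ∈ T
      · obtain rfl := (meq x).1 ⟨hx, hT'⟩
        exact ⟨fun i => (ce2 i).1, fun j => (pe2 j).1⟩
      · exact ⟨fun i => cs2 i x hT', fun j => ps2 j x hT'⟩
    have T1 : ∀ x ∈ T, (∀ i, χ1 i x = 0) ∧ (∀ j, ψa j x = 1) ∧
        ∀ j, χ3 j x = 1 - ψ2 j.2 x := fun x hx => by
      by_cases hS' : x ∈ S
      · obtain rfl := (meq x).1 ⟨hS', hx⟩
        refine ⟨fun i => (ce1 i).2, fun j => ?_, fun j => ?_⟩
        · simp [hψa, gS x hS', (pe1 j).2]
        · simp [hχ3, gS x hS', (pe1 j.1).2, (pe2 j.2).1]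
      · refine ⟨fun i => cs1 i x hS', fun j => ?_, fun j => ?_⟩
        · simp [hψa, gT x hx hS', ps1 j x hS']
        · simp [hχ3, gT x hx hS', ps1 j.1 x hS']
    have S3 : ∀ x ∈ S, (∀ j, ψa j x = ψ1 j x) ∧ ∀ j, χ3 j x = ψ1 j.1 x := fun x hx =>
      ⟨fun j => by simp [hψa, gS x hx], fun j => by simp [hχ3, gS x hx]⟩
    have one1 : ∑ j, π1 j * 1 = 1 := by simpa using hπs1
    have one2 : ∑ j, π2 j * 1 = 1 := by simpa using hπs2
    have comp2 : ∀ x z, ∑ j, π2 j * ((1 - ψ2 j x) * (1 - ψ2 j z)) =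
        1 - gram π2 ψ2 x x - gram π2 ψ2 z z + gram π2 ψ2 x z := fun x z => by
      rw [gram_self_eq _ hψ2, gram_self_eq _ hψ2]
      conv_rhs => rw [← hπs2]
      simp only [gram, ← Finset.sum_add_distrib, ← Finset.sum_sub_distrib]
      exact Finset.sum_congr rfl fun j _ => by ring
    -- the three kinds of pairs
    have gSS : ∀ x ∈ S, ∀ z ∈ S, gram W X x z = gram w1 χ1 x z + α * gram π1 ψ1 x z ∧
        gram P Y x z = l * gram π1 ψ1 x z := by
      intro x hx z hz
      refine ⟨?_, ?_⟩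
      · rw [gram_sum, gram_sum, gram_eq_zero w2 fun i => Or.inl ((S2 x hx).1 i), add_zero]
        simp only [gram, hw3, (S3 x hx).2, (S3 z hz).2, mul_assoc]
        congr 1
        rw [← Finset.mul_sum]
        congr 1
        have := sum_prod_factor π1 (fun j => ψ1 j x * ψ1 j z) π2 (fun _ => 1)
        rw [one2, mul_one] at this
        rw [← this]
        exact Finset.sum_congr rfl fun j _ => by ring
      · rw [gram_sum, gram_const_mul, gram_eq_zero (fun j => (1 - l) * π2 j)
          fun j => Or.inl ((S2 x hx).2 j), add_zero]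
        simp only [gram, (S3 x hx).1, (S3 z hz).1]
    have gTT : ∀ x ∈ T, ∀ z ∈ T, gram W X x z = gram w2 χ2 x z +
          α * (1 - gram π2 ψ2 x x - gram π2 ψ2 z z + gram π2 ψ2 x z) ∧
        gram P Y x z = l + (1 - l) * gram π2 ψ2 x z := by
      intro x hx z hz
      refine ⟨?_, ?_⟩
      · rw [gram_sum, gram_sum, gram_eq_zero w1 fun i => Or.inl ((T1 x hx).1 i), zero_add]
        simp only [gram, hw3, (T1 x hx).2.2, (T1 z hz).2.2, mul_assoc]
        congr 1
        rw [← Finset.mul_sum]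
        congr 1
        have := sum_prod_factor π1 (fun _ => 1) π2 (fun j => (1 - ψ2 j x) * (1 - ψ2 j z))
        rw [one1, one_mul, comp2] at this
        simp only [gram] at this
        rw [← this]
        exact Finset.sum_congr rfl fun j _ => by ring
      · rw [gram_sum, gram_const_mul, gram_const_mul]
        simp only [gram, (T1 x hx).2.1, (T1 z hz).2.1, mul_one, hπs1]
    have gST : ∀ x ∈ S, ∀ z ∈ T,
        gram W X x z = α * (gram π1 ψ1 x x * (1 - gram π2 ψ2 z z)) ∧
        gram P Y x z = l * gram π1 ψ1 x x := by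
      intro x hx z hz
      refine ⟨?_, ?_⟩
      · rw [gram_sum, gram_sum, gram_eq_zero w1 fun i => Or.inr ((T1 z hz).1 i),
          gram_eq_zero w2 fun i => Or.inl ((S2 x hx).1 i), add_zero, zero_add]
        simp only [gram, hw3, (S3 x hx).2, (T1 z hz).2.2, mul_assoc]
        rw [← Finset.mul_sum]
        congr 1
        have h2 : ∑ j, π2 j * (1 - ψ2 j z) = 1 - gram π2 ψ2 z z := by
          rw [gram_self_eq _ hψ2]
          simp [mul_sub, hπs2]
        have := sum_prod_factor π1 (fun j => ψ1 j x) π2 (fun j => 1 - ψ2 j z)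
        rw [h2, ← gram_self_eq _ hψ1] at this
        simp only [gram] at this
        rw [← this]
        exact Finset.sum_congr rfl fun j _ => by ring
      · rw [gram_sum, gram_const_mul, gram_eq_zero (fun j => (1 - l) * π2 j)
          fun j => Or.inl ((S2 x hx).2 j), add_zero, gram_self_eq _ hψ1]
        simp only [gram, (S3 x hx).1, (T1 z hz).2.1, mul_one]
    have selfS : ∀ x ∈ S, gram W X x x = gram w1 χ1 x x + α * gram π1 ψ1 x x ∧
        gram P Y x x = l * gram π1 ψ1 x x := fun x hx => gSS x hx x hx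
    have selfT : ∀ z ∈ T, gram W X z z = gram w2 χ2 z z + α * (1 - gram π2 ψ2 z z) ∧
        gram P Y z z = l + (1 - l) * gram π2 ψ2 z z := fun z hz =>
      ⟨by rw [(gTT z hz z hz).1]; ring, (gTT z hz z hz).2⟩
    have sepS : ∀ x ∈ S, ∀ z ∈ S, sepMass W X x z + D * sepMass P Y x z =
        sepMass w1 χ1 x z + d p y * sepMass π1 ψ1 x z := by
      intro x hx z hz
      simp only [sepMass, (selfS x hx).1, (selfS x hx).2, (selfS z hz).1, (selfS z hz).2,
        (gSS x hx z hz).1, (gSS x hx z hz).2, ea]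
      ring
    have sepT : ∀ x ∈ T, ∀ z ∈ T, sepMass W X x z + D * sepMass P Y x z =
        sepMass w2 χ2 x z + d y q * sepMass π2 ψ2 x z := by
      intro x hx z hz
      simp only [sepMass, (selfT x hx).1, (selfT x hx).2, (selfT z hz).1, (selfT z hz).2,
        (gTT x hx z hz).1, (gTT x hx z hz).2, eb]
      ring
    have sepST : ∀ x ∈ S, ∀ z ∈ T, sepMass W X x z + D * sepMass P Y x z =
        gram w1 χ1 x x + gram w2 χ2 z z +
          α * (gram π1 ψ1 x x + (1 - gram π2 ψ2 z z) -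
            2 * gram π1 ψ1 x x * (1 - gram π2 ψ2 z z)) +
          D * (l * (1 - gram π1 ψ1 x x) + (1 - l) * (1 - (1 - gram π2 ψ2 z z))) := by
      intro x hx z hz
      simp only [sepMass, (selfS x hx).1, (selfS x hx).2, (selfT z hz).1, (selfT z hz).2,
        (gST x hx z hz).1, (gST x hx z hz).2]
      ring
    have sym : ∀ x z, sepMass W X x z + D * sepMass P Y x z =
        sepMass W X z x + D * sepMass P Y z x := fun x z => by
      have e1 : gram W X x z = gram W X z x := Finset.sum_congr rfl fun i _ => by ring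
      have e2 : gram P Y x z = gram P Y z x := Finset.sum_congr rfl fun i _ => by ring
      simp only [sepMass, e1, e2]
      ring
    have hw : ∀ i, 0 ≤ W i := by
      rintro ((i | i) | ⟨i, j⟩)
      · exact hw1 i
      · exact hw2 i
      · exact mul_nonneg hα0 (mul_nonneg (hπ1 i) (hπ2 j))
    have hPn : ∀ j, 0 ≤ P j := by
      rintro (j | j)
      · exact mul_nonneg hl0 (hπ1 j)
      · exact mul_nonneg (sub_nonneg.2 hl1) (hπ2 j)
    have hPs : ∑ j, P j = 1 := by
      simp [hP, Fintype.sum_sum_type, ← Finset.mul_sum, hπs1, hπs2]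
    have bits : ∀ j x, ψa j x = 0 ∨ ψa j x = 1 := fun j x => by
      by_cases hx : x ∈ T
      · exact Or.inr ((T1 x hx).2.1 j)
      · simpa [hψa, hg, hx] using hψ1 j x
    have bits3 : ∀ j x, χ3 j x = 0 ∨ χ3 j x = 1 := fun j x => by
      by_cases hx : x ∈ T
      · rw [(T1 x hx).2.2 j]
        rcases hψ2 j.2 x with h | h <;> simp [h]
      · simpa [hχ3, hg, hx] using hψ1 j.1 x
    obtain ⟨hpS, hyS, -⟩ := hS.ends
    obtain ⟨hyT, hqT, hyq⟩ := hT.ends
    have hqS : q ∉ S := fun h => hyq ((meq q).1 ⟨h, hqT⟩).symm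
    have hpT : p ∉ T := fun h => hS.ends.2.2 ((meq p).1 ⟨hpS, h⟩)
    have endS : ∀ x ∈ S, d x p ≤ 9 * gram W X x x + prof (gram P Y x x) * D ∧
        d x q ≤ 9 * gram W X x x + prof (1 - gram P Y x x) * D := by
      intro x hx
      obtain ⟨u0, u1⟩ := gram_self_mem_unit hπ1 hπs1 hψ1 x
      obtain ⟨b1, b2⟩ := hb1 x hx
      rw [(selfS x hx).1, (selfS x hx).2]
      rw [ea] at b1 b2
      refine ⟨near_step u0 hl0 hl1 hα0 hD b1, ?_⟩
      have := far_step (X := d x q) (t := 1 - gram π1 ψ1 x x) (l := 1 - l)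
        (by linarith) (sub_nonneg.2 hl1) (by linarith) hα0 hD
        (A := gram w1 χ1 x x)
        (by rw [sub_sub_cancel]; linarith [htri x y q, eb])
        (by rw [sub_sub_cancel, sub_sub_cancel]; linarith [htri x p q])
      rw [sub_sub_cancel, sub_sub_cancel] at this
      rwa [show 1 - l * gram π1 ψ1 x x = 1 - l + l * (1 - gram π1 ψ1 x x) by ring]
    have endT : ∀ z ∈ T, d z p ≤ 9 * gram W X z z + prof (gram P Y z z) * D ∧
        d z q ≤ 9 * gram W X z z + prof (1 - gram P Y z z) * D := by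
      intro z hz
      obtain ⟨u0, u1⟩ := gram_self_mem_unit hπ2 hπs2 hψ2 z
      obtain ⟨b1, b2⟩ := hb2 z hz
      rw [(selfT z hz).1, (selfT z hz).2]
      rw [eb] at b1 b2
      refine ⟨far_step u1 hl0 hl1 hα0 hD (by linarith [htri z y p, hc y p, ea])
        (by linarith [htri z q p, hc q p]), ?_⟩
      have := near_step (sub_nonneg.2 u1) (sub_nonneg.2 hl1) (by linarith) hα0 hD b2
      rwa [show 1 - (l + (1 - l) * gram π2 ψ2 z z) = (1 - l) * (1 - gram π2 ψ2 z z) by ring]
    have crossST : ∀ x ∈ S, ∀ z ∈ T, d x z ≤ 54 * (sepMass W X x z + D * sepMass P Y x z) := by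
      intro x hx z hz
      rw [sepST x hx z hz]
      obtain ⟨u0, u1⟩ := gram_self_mem_unit hπ1 hπs1 hψ1 x
      obtain ⟨v0, v1⟩ := gram_self_mem_unit hπ2 hπs2 hψ2 z
      have ha : 0 ≤ α + l * D := ea ▸ dn p y
      have hb : 0 ≤ α + (1 - l) * D := eb ▸ dn y q
      obtain ⟨a1, a2⟩ := hb1 x hx
      obtain ⟨b1, -⟩ := hb2 z hz
      rw [ea] at a1 a2
      rw [eb] at b1
      have k1 := mul_le_mul_of_nonneg_right (prof_le_left (gram π1 ψ1 x x)) ha
      have k2 := mul_le_mul_of_nonneg_right (prof_le_left (1 - gram π1 ψ1 x x)) ha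
      have k3 := mul_le_mul_of_nonneg_right (prof_le_left (gram π2 ψ2 z z)) hb
      have k4 : prof (gram P Y z z) * D ≤ 4 * D := by
        refine mul_le_mul_of_nonneg_right ((prof_le_right _).trans ?_) hD
        have := (selfT z hz).2
        nlinarith [mul_nonneg (sub_nonneg.2 hl1) v0]
      refine cross_step u0 u1 (sub_nonneg.2 v1) (by linarith) hl0 hl1 hα0 hD
        (add_nonneg (gram_self_nonneg hw1 _ _) (gram_self_nonneg hw2 _ _)) ?_ ?_
      · rw [sub_sub_cancel]
        linarith [htri x y z, hc y z]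
      · linarith [htri x p z, hc p z, (endT z hz).1, (selfT z hz).1]
    refine ⟨(ι1 ⊕ ι2) ⊕ κ1 × κ2, κ1 ⊕ κ2, inferInstance, inferInstance, W, P, X, Y, hw, hPn, hPs,
      ?_, ?_, ?_, ?_, ?_, ?_, ?_, ?_, ?_⟩
    · rintro ((i | i) | j) x
      exacts [hχ1 i x, hχ2 i x, bits3 j x]
    · rintro (j | j) x
      exacts [bits j x, hψ2 j x]
    · intro i x hx
      rw [mem_union, not_or] at hx
      rcases i with (i | i) | j
      exacts [cs1 i x hx.1, cs2 i x hx.2, by simp [hX, hχ3, hg, hx.2, ps1 j.1 x hx.1]]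
    · intro j x hx
      rw [mem_union, not_or] at hx
      rcases j with j | j
      exacts [by simp [hY, hψa, hg, hx.2, ps1 j x hx.1], ps2 j x hx.2]
    · rintro ((i | i) | j)
      · exact ⟨(ce1 i).1, cs1 i q hqS⟩
      · exact ⟨(S2 p hpS).1 i, (ce2 i).2⟩
      · exact ⟨by simp [hX, (S3 p hpS).2, (pe1 j.1).1],
          by simp [hX, (T1 q hqT).2.2, (pe2 j.2).2]⟩
    · rintro (j | j)
      · exact ⟨by simp [hY, (S3 p hpS).1, (pe1 j).1], by simp [hY, (T1 q hqT).2.1]⟩
      · exact ⟨(S2 p hpS).2 j, (pe2 j).2⟩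
    · intro u v huv
      simp only [mem_insert, mem_union] at huv
      rcases huv with huv | he | hf
      · have hpq' : sepMass W X p q + D * sepMass P Y p q = D := by
          have z1 : gram w1 χ1 p p = 0 := gram_eq_zero _ fun i => Or.inl (ce1 i).1
          have z2 : gram w2 χ2 q q = 0 := gram_eq_zero _ fun i => Or.inl (ce2 i).2
          have z3 : gram π1 ψ1 p p = 0 := gram_eq_zero _ fun i => Or.inl (pe1 i).1
          have z4 : gram π2 ψ2 q q = 1 := by
            rw [gram_self_eq _ hψ2]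
            simp [(fun j => (pe2 j).2), hπs2]
          rw [sepST p hpS q hqT, z1, z2, z3, z4]
          ring
        rcases Sym2.eq_iff.1 huv with ⟨rfl, rfl⟩ | ⟨rfl, rfl⟩
        · exact hpq'
        · rw [sym, hc u v]; exact hpq'
      · rw [sepS u (hS.pairs u v he).1 v (hS.pairs u v he).2]; exact hE1 u v he
      · rw [sepT u (hT.pairs u v hf).1 v (hT.pairs u v hf).2]; exact hE2 u v hf
    · intro x hx
      rcases mem_union.1 hx with h | h
      exacts [endS x h, endT x h]
    · intro x hx z hz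
      rcases mem_union.1 hx with h | h <;> rcases mem_union.1 hz with h' | h'
      · rw [sepS x h z h']; exact hp1 x h z h'
      · exact crossST x h z h'
      · rw [hc, sym]; exact crossST z h' x h
      · rw [sepT x h z h']; exact hp2 x h z h'
  | parallel p q S T E F hS hT hST ih1 ih2 =>
    obtain ⟨ι1, κ1, _, _, w1, π1, χ1, ψ1, hw1, hπ1, hπs1, hχ1, hψ1, cs1, ps1, ce1, pe1,
      hE1, hb1, hp1⟩ := ih1
    obtain ⟨ι2, κ2, _, _, w2, π2, χ2, ψ2, hw2, hπ2, hπs2, hχ2, hψ2, cs2, ps2, ce2, pe2,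
      hE2, hb2, hp2⟩ := ih2
    have meq : ∀ x, x ∈ S → x ∈ T → x = p ∨ x = q := fun x h1 h2 => by
      have := mem_inter.2 ⟨h1, h2⟩
      simpa [hST] using this
    set D := d p q with hDdef
    have hD : 0 ≤ D := dn p q
    set g : V → ℝ := fun x => if x ∈ T ∧ x ∉ S then 1 else 0 with hg
    set W := Sum.elim w1 w2 with hW
    set X := Sum.elim χ1 χ2 with hX
    set P : κ1 × κ2 → ℝ := fun j => π1 j.1 * π2 j.2 with hP
    set Y : κ1 × κ2 → V → ℝ := fun j x => ψ1 j.1 x + g x * ψ2 j.2 x with hY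
    have S2 : ∀ x ∈ S, (∀ i, χ2 i x = 0) ∧ ∀ j, Y j x = ψ1 j.1 x := fun x hx => by
      refine ⟨fun i => ?_, fun j => by simp [hY, hg, hx]⟩
      by_cases hT' : x ∈ T
      · rcases meq x hx hT' with rfl | rfl
        exacts [(ce2 i).1, (ce2 i).2]
      · exact cs2 i x hT'
    have T1 : ∀ x ∈ T, (∀ i, χ1 i x = 0) ∧ ∀ j, Y j x = ψ2 j.2 x := fun x hx => by
      by_cases hS' : x ∈ S
      · rcases meq x hS' hx with rfl | rfl
        · exact ⟨fun i => (ce1 i).1, fun j => by
            simp [hY, hg, hS', (pe1 j.1).1, (pe2 j.2).1]⟩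
        · exact ⟨fun i => (ce1 i).2, fun j => by
            simp [hY, hg, hS', (pe1 j.1).2, (pe2 j.2).2]⟩
      · exact ⟨fun i => cs1 i x hS', fun j => by simp [hY, hg, hx, hS', ps1 j.1 x hS']⟩
    have one1 : ∑ j, π1 j * 1 = 1 := by simpa using hπs1
    have one2 : ∑ j, π2 j * 1 = 1 := by simpa using hπs2
    have gSS : ∀ x ∈ S, ∀ z ∈ S,
        gram W X x z = gram w1 χ1 x z ∧ gram P Y x z = gram π1 ψ1 x z := by
      intro x hx z hz
      refine ⟨?_, ?_⟩
      · rw [gram_sum, gram_eq_zero w2 fun i => Or.inl ((S2 x hx).1 i), add_zero]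
      · have := sum_prod_factor π1 (fun j => ψ1 j x * ψ1 j z) π2 (fun _ => 1)
        rw [one2, mul_one] at this
        simp only [gram, hP, (S2 x hx).2, (S2 z hz).2]
        rw [← this]
        exact Finset.sum_congr rfl fun j _ => by ring
    have gTT : ∀ x ∈ T, ∀ z ∈ T,
        gram W X x z = gram w2 χ2 x z ∧ gram P Y x z = gram π2 ψ2 x z := by
      intro x hx z hz
      refine ⟨?_, ?_⟩
      · rw [gram_sum, gram_eq_zero w1 fun i => Or.inl ((T1 x hx).1 i), zero_add]
      · have := sum_prod_factor π1 (fun _ => 1) π2 (fun j => ψ2 j x * ψ2 j z)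
        rw [one1, one_mul] at this
        simp only [gram, hP, (T1 x hx).2, (T1 z hz).2]
        rw [← this]
        exact Finset.sum_congr rfl fun j _ => by ring
    have gST : ∀ x ∈ S, ∀ z ∈ T,
        gram W X x z = 0 ∧ gram P Y x z = gram π1 ψ1 x x * gram π2 ψ2 z z := by
      intro x hx z hz
      refine ⟨?_, ?_⟩
      · rw [gram_sum, gram_eq_zero w2 fun i => Or.inl ((S2 x hx).1 i),
          gram_eq_zero w1 fun i => Or.inr ((T1 z hz).1 i), add_zero]
      · rw [gram_self_eq _ hψ1, gram_self_eq _ hψ2, ← sum_prod_factor]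
        simp only [gram, hP, (S2 x hx).2, (T1 z hz).2]
    have sepS : ∀ x ∈ S, ∀ z ∈ S, sepMass W X x z + D * sepMass P Y x z =
        sepMass w1 χ1 x z + D * sepMass π1 ψ1 x z := by
      intro x hx z hz
      simp only [sepMass, gSS x hx x hx, gSS z hz z hz, gSS x hx z hz]
    have sepT : ∀ x ∈ T, ∀ z ∈ T, sepMass W X x z + D * sepMass P Y x z =
        sepMass w2 χ2 x z + D * sepMass π2 ψ2 x z := by
      intro x hx z hz
      simp only [sepMass, gTT x hx x hx, gTT z hz z hz, gTT x hx z hz]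
    have sym : ∀ x z, sepMass W X x z + D * sepMass P Y x z =
        sepMass W X z x + D * sepMass P Y z x := fun x z => by
      have e1 : gram W X x z = gram W X z x := Finset.sum_congr rfl fun i _ => by ring
      have e2 : gram P Y x z = gram P Y z x := Finset.sum_congr rfl fun i _ => by ring
      simp only [sepMass, e1, e2]
      ring
    have crossST : ∀ x ∈ S, ∀ z ∈ T, d x z ≤ 54 * (sepMass W X x z + D * sepMass P Y x z) := by
      intro x hx z hz
      obtain ⟨u0, u1⟩ := gram_self_mem_unit hπ1 hπs1 hψ1 x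
      obtain ⟨v0, v1⟩ := gram_self_mem_unit hπ2 hπs2 hψ2 z
      obtain ⟨a1, a2⟩ := hb1 x hx
      obtain ⟨b1, b2⟩ := hb2 z hz
      have k1 := mul_le_mul_of_nonneg_right (prof_le_left (gram π1 ψ1 x x)) hD
      have k2 := mul_le_mul_of_nonneg_right (prof_le_left (1 - gram π1 ψ1 x x)) hD
      have k3 := mul_le_mul_of_nonneg_right (prof_le_left (gram π2 ψ2 z z)) hD
      have k4 := mul_le_mul_of_nonneg_right (prof_le_left (1 - gram π2 ψ2 z z)) hD
      refine (parallel_step (A := gram w1 χ1 x x + gram w2 χ2 z z) u0 u1 v0 v1 hD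
        (add_nonneg (gram_self_nonneg hw1 _ _) (gram_self_nonneg hw2 _ _)) (X := d x z)
        (by linarith [htri x p z, hc p z]) (by linarith [htri x q z, hc q z])).trans_eq ?_
      simp only [sepMass, gSS x hx x hx, gTT z hz z hz, gST x hx z hz]
      ring
    refine ⟨ι1 ⊕ ι2, κ1 × κ2, inferInstance, inferInstance, W, P, X, Y, ?_, ?_, ?_, ?_, ?_, ?_,
      ?_, ?_, ?_, ?_, ?_, ?_⟩
    · rintro (i | i)
      exacts [hw1 i, hw2 i]
    · exact fun j => mul_nonneg (hπ1 j.1) (hπ2 j.2)
    · simp only [hP, Fintype.sum_prod_type, ← Finset.mul_sum, hπs2, mul_one, hπs1]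
    · rintro (i | i) x
      exacts [hχ1 i x, hχ2 i x]
    · intro j x
      by_cases hx : x ∈ T
      · rw [(T1 x hx).2 j]; exact hψ2 j.2 x
      · simpa [hY, hg, hx] using hψ1 j.1 x
    · intro i x hx
      rw [mem_union, not_or] at hx
      rcases i with i | i
      exacts [cs1 i x hx.1, cs2 i x hx.2]
    · intro j x hx
      rw [mem_union, not_or] at hx
      simp [hY, hg, hx.2, ps1 j.1 x hx.1]
    · rintro (i | i)
      exacts [ce1 i, ce2 i]
    · intro j
      exact ⟨by rw [(S2 p hS.ends.1).2]; exact (pe1 j.1).1,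
        by rw [(S2 q hS.ends.2.1).2]; exact (pe1 j.1).2⟩
    · intro u v huv
      rcases mem_union.1 huv with he | hf
      · rw [sepS u (hS.pairs u v he).1 v (hS.pairs u v he).2]; exact hE1 u v he
      · rw [sepT u (hT.pairs u v hf).1 v (hT.pairs u v hf).2]; exact hE2 u v hf
    · intro x hx
      rcases mem_union.1 hx with h | h
      · rw [(gSS x h x h).1, (gSS x h x h).2]; exact hb1 x h
      · rw [(gTT x h x h).1, (gTT x h x h).2]; exact hb2 x h
    · intro x hx z hz
      rcases mem_union.1 hx with h | h <;> rcases mem_union.1 hz with h' | h'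
      · rw [sepS x h z h']; exact hp1 x h z h'
      · exact crossST x h z h'
      · rw [hc, sym]; exact crossST z h' x h
      · rw [sepT x h z h']; exact hp2 x h z h'

/-- The graph lies on some series-parallel network: the treewidth is at most two. -/
def InNetwork (G : SimpleGraph V) : Prop :=
  ∃ (p q : V) (S : Finset V) (E : Finset (Sym2 V)), Net p q S E ∧
    ∀ u v, G.Adj u v → s(u, v) ∈ E

lemma inNetwork_anti {G H : SimpleGraph V} (hle : H ≤ G) (h : InNetwork G) : InNetwork H := by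
  obtain ⟨p, q, S, E, hN, hE⟩ := h
  exact ⟨p, q, S, E, hN, fun u v huv => hE u v (hle huv)⟩

/-- Graphs on series-parallel networks embed into l1 with distortion 54. -/
theorem inNetwork_embeds [Fintype V] {G : SimpleGraph V} {ℓ : Sym2 V → ℝ} (hℓ : ∀ e, 0 ≤ ℓ e)
    (h : InNetwork G) : EmbedsL1 G ℓ 54 := by
  obtain ⟨p, q, S, E, hN, hGE⟩ := h
  set M : ℝ := ∑ x, ∑ y, gdist G ℓ x y with hM
  let d : V → V → ℝ := fun x y => if G.Reachable x y then gdist G ℓ x y else M
  have dn : ∀ x y, 0 ≤ d x y := fun x y => by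
    simp only [d]
    split_ifs
    exacts [gdist_nonneg hℓ x y,
      Finset.sum_nonneg fun a _ => Finset.sum_nonneg fun b _ => gdist_nonneg hℓ a b]
  have dM : ∀ x y, d x y ≤ M := fun x y => by
    simp only [d]
    split_ifs
    · exact (single_le_sum (f := fun b => gdist G ℓ x b) (fun b _ => gdist_nonneg hℓ x b)
        (mem_univ y)).trans (single_le_sum (f := fun a => ∑ b, gdist G ℓ a b)
          (fun a _ => Finset.sum_nonneg fun b _ => gdist_nonneg hℓ a b) (mem_univ x))
    · exact le_rfl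
  have d0 : ∀ x, d x x = 0 := fun x => by simp [d, gdist_self hℓ]
  have dc : ∀ x y, d x y = d y x := fun x y => by
    by_cases h : G.Reachable x y
    · simp [d, h, h.symm, gdist_comm hℓ h]
    · exact (if_neg h).trans (if_neg fun r => h r.symm).symm
  have dt : ∀ x y z, d x z ≤ d x y + d y z := fun x y z => by
    by_cases h1 : G.Reachable x y
    · by_cases h2 : G.Reachable y z
      · simp only [d, if_pos h1, if_pos h2, if_pos (h1.trans h2)]
        exact gdist_triangle hℓ h1 h2
      · have : d y z = M := if_neg h2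
        linarith [dM x z, dn x y]
    · have : d x y = M := if_neg h1
      linarith [dM x z, dn y z]
  obtain ⟨ι, κ, _, _, w, π, χ, ψ, hw, hπ, -, hχ, hψ, -, -, -, -, hedge, -, hlow⟩ :=
    net_model d0 dc dt hN
  let F : V → ι ⊕ κ → ℝ := fun x => Sum.elim (fun i => w i * χ i x) fun j => d p q * π j * ψ j x
  have hF : ∀ x z, ∑ i, |F x i - F z i| = sepMass w χ x z + d p q * sepMass π ψ x z := by
    intro x z
    simp only [F, Fintype.sum_sum_type, Sum.elim_inl, Sum.elim_inr]
    rw [← sepMass_eq_sum_abs hw hχ, sepMass_eq_sum_abs hπ hψ, Finset.mul_sum]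
    congr 1
    refine Finset.sum_congr rfl fun j _ => ?_
    rw [show d p q * π j * ψ j x - d p q * π j * ψ j z
      = d p q * (π j * ψ j x - π j * ψ j z) by ring, abs_mul, abs_of_nonneg (dn p q)]
  have hR : ∀ x y, G.Reachable x y → d x y = gdist G ℓ x y := fun x y h => if_pos h
  refine embedsL1_of_fintype (fun x i => 54 * F x i) fun x z hxz => ?_
  have hmul : ∀ u v, ∑ i, |54 * F u i - 54 * F v i| = 54 * ∑ i, |F u i - F v i| := fun u v => by
    simp only [← mul_sub, abs_mul, Finset.mul_sum]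
    norm_num
  refine ⟨?_, lipschitz_of_edges (fun x i => 54 * F x i) (by norm_num) (fun a b hab => ?_) hxz⟩
  · rw [hmul, hF]
    rcases eq_or_ne x z with rfl | hne
    · rw [gdist_self hℓ, ← hF]
      exact mul_nonneg (by norm_num) (Finset.sum_nonneg fun i _ => abs_nonneg _)
    · have key : ∀ {a b : V}, G.Reachable a b → a ≠ b → a ∈ S := by
        rintro a b ⟨W⟩ hab
        cases W with
        | nil => exact absurd rfl hab
        | cons h W' => exact (hN.pairs _ _ (hGE _ _ h)).1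
      rw [← hR x z hxz]
      exact hlow x (key hxz hne) z (key hxz.symm hne.symm)
  · rw [hmul, hF, hedge a b (hGE a b hab), hR a b hab.reachable]
    exact mul_le_mul_of_nonneg_left (gdist_adj hℓ hab) (by norm_num)

end Vale.Agent.P235
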