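import Vale.Agent.P235.Geodesic
import Vale.Agent.P235.Series
import Vale.Agent.P235.Block

/-!
P235: path decompositions of bounded adhesion and their nesting.

A shortest walk from a leftmost to a rightmost vertex of a component meets every adhesion set, so
`k` rounds of removing geodesics empty all adhesion sets of size at most `k`.
-/

namespace Vale.Agent.P235

open Classical Finset

variable {V : Type} {G : SimpleGraph V} {ℓ : Sym2 V → ℝ}

/-- `lo v ≤ hi v` are the first and last bag of `v` in a path decomposition whose adhesion sets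
have at most `k` vertices in every component. -/
def PathAdhesion (G : SimpleGraph V) (k : ℕ) (lo hi : V → ℕ) : Prop :=
  (∀ v, lo v ≤ hi v) ∧ (∀ a b, G.Adj a b → lo a ≤ hi b) ∧
    ∀ (K : G.ConnectedComponent) (t : ℕ) (s : Finset V),
      (∀ v ∈ s, G.connectedComponentMk v = K ∧ lo v ≤ t ∧ t < hi v) → s.card ≤ k

/-- Nested path decompositions glued along cut vertices: every cycle has one label, and every
labelled piece has a path decomposition of adhesion at most `k` in each component such that the
piece without the vertices lying in two bags belongs to the previous level; level 0: forests and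
subgraphs of series-parallel networks. -/
def Nested {V : Type} (k : ℕ) : ℕ → SimpleGraph V → Prop
  | 0, G => G.IsAcyclic ∨ InNetwork G
  | r + 1, G => ∃ c : Sym2 V → Sym2 V, CyclesMonochrome G c ∧
      ∀ i, ∃ lo hi : V → ℕ, PathAdhesion (piece G c i) k lo hi ∧
        Nested k r (removeVerts (piece G c i) {v | lo v < hi v})

lemma component_mono {H : SimpleGraph V} (hle : H ≤ G) {u v : V}
    (h : H.connectedComponentMk u = H.connectedComponentMk v) :
    G.connectedComponentMk u = G.connectedComponentMk v :=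
  SimpleGraph.ConnectedComponent.sound ((SimpleGraph.ConnectedComponent.exact h).mono hle)

lemma pathAdhesion_anti {H : SimpleGraph V} (hle : H ≤ G) {k : ℕ} {lo hi : V → ℕ}
    (h : PathAdhesion G k lo hi) : PathAdhesion H k lo hi := by
  refine ⟨h.1, fun a b hab => h.2.1 a b (hle hab), fun K t s hs => ?_⟩
  obtain ⟨u, rfl⟩ := K.exists_rep
  exact h.2.2 (G.connectedComponentMk u) t s fun v hv =>
    ⟨component_mono hle (hs v hv).1, (hs v hv).2⟩

lemma piece_mono {H : SimpleGraph V} (hle : H ≤ G) {ι : Type} (c : Sym2 V → ι) (i : ι) :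
    piece H c i ≤ piece G c i := fun _ _ h => ⟨hle h.1, h.2⟩

lemma removeVerts_mono {H : SimpleGraph V} (hle : H ≤ G) {A B : Set V} (hAB : A ⊆ B) :
    removeVerts H B ≤ removeVerts G A :=
  fun _ _ h => ⟨hle h.1, fun ha => h.2.1 (hAB ha), fun ha => h.2.2 (hAB ha)⟩

/-- The classes are closed under subgraphs. -/
theorem nested_anti (k : ℕ) : ∀ (r : ℕ) {G H : SimpleGraph V}, H ≤ G → Nested k r G → Nested k r H
  | 0, _, _, hle, h => h.imp (SimpleGraph.IsAcyclic.anti hle) (inNetwork_anti hle)
  | r + 1, G, H, hle, ⟨c, hc, h⟩ => by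
    refine ⟨c, fun v p hp e he f hf => ?_, fun i => ?_⟩
    · exact hc v (p.mapLe hle) ((SimpleGraph.Walk.isCycle_mapLe hle).2 hp) e
        (by rwa [SimpleGraph.Walk.edges_mapLe_eq_edges]) f
        (by rwa [SimpleGraph.Walk.edges_mapLe_eq_edges])
    · obtain ⟨lo, hi, h1, h2⟩ := h i
      exact ⟨lo, hi, pathAdhesion_anti (piece_mono hle c i) h1,
        nested_anti k r (removeVerts_mono (piece_mono hle c i) subset_rfl) h2⟩

/-- A walk crosses every cut of the path decomposition between its ends. -/
lemma exists_crossing {lo hi : V → ℕ} (hadj : ∀ a b, G.Adj a b → lo a ≤ hi b) {t : ℕ} :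
    ∀ {a b : V} (p : G.Walk a b), lo a ≤ t → t < hi b → ∃ v ∈ p.support, lo v ≤ t ∧ t < hi v := by
  intro a b p
  induction p with
  | nil => exact fun h1 h2 => ⟨_, by simp, h1, h2⟩
  | cons h p ih =>
    rename_i a x b
    intro h1 h2
    by_cases hta : t < hi a
    · exact ⟨a, by simp, h1, hta⟩
    · obtain ⟨v, hv, hv'⟩ := ih ((hadj x a h.symm).trans (not_lt.1 hta)) h2
      exact ⟨v, by simp [hv], hv'⟩

lemma gdist_abs_sub_le (hℓ : ∀ e, 0 ≤ ℓ e) {a x y : V} (hx : G.Reachable a x)
    (hy : G.Reachable a y) : |gdist G ℓ a x - gdist G ℓ a y| ≤ gdist G ℓ x y := by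
  have hxy := hx.symm.trans hy
  have h1 := gdist_triangle hℓ hx hxy
  have h2 := gdist_triangle hℓ hy hxy.symm
  rw [gdist_comm hℓ hxy.symm] at h2
  exact abs_sub_le_iff.2 ⟨by linarith, by linarith⟩

variable [Fintype V]

/-- A shortest walk exists. -/
lemma exists_shortest (hℓ : ∀ e, 0 ≤ ℓ e) {a b : V} (h : G.Reachable a b) :
    ∃ W : G.Walk a b, walkLen ℓ W ≤ gdist G ℓ a b := by
  obtain ⟨p0, hp0⟩ := h.exists_isPath
  have : Nonempty (G.Path a b) := ⟨⟨p0, hp0⟩⟩
  obtain ⟨W, -, hW⟩ := Finset.exists_min_image (univ : Finset (G.Path a b))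
    (fun p => walkLen ℓ p.1) univ_nonempty
  refine ⟨W.1, le_gdist h fun p => (hW ⟨p.bypass, p.bypass_isPath⟩ (mem_univ _)).trans ?_⟩
  have e1 : walkLen ℓ p.bypass = ∑ e ∈ p.bypass.edges.toFinset, ℓ e :=
    (List.sum_toFinset _ p.bypass_isPath.isTrail.edges_nodup).symm
  have e2 : ∑ e ∈ p.edges.toFinset, ℓ e ≤ walkLen ℓ p := by
    have key : ∀ L : List (Sym2 V), ∑ e ∈ L.toFinset, ℓ e ≤ (L.map ℓ).sum := by
      intro L
      induction L with
      | nil => simp
      | cons e L ih =>
        rw [List.toFinset_cons, List.map_cons, List.sum_cons]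
        by_cases he : e ∈ L.toFinset
        · rw [Finset.insert_eq_self.2 he]
          linarith [hℓ e]
        · rw [Finset.sum_insert he]
          linarith
    exact key _
  refine (e1.trans_le ?_).trans e2
  refine Finset.sum_le_sum_of_subset_of_nonneg (fun e he => ?_) fun e _ _ => hℓ e
  rw [List.mem_toFinset] at he ⊢
  exact p.edges_bypass_subset_edges he

omit [Fintype V] in
/-- Along a shortest walk the distance from its start recovers the metric. -/
lemma shortest_guide (hℓ : ∀ e, 0 ≤ ℓ e) {a b : V} (W : G.Walk a b)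
    (hW : walkLen ℓ W ≤ gdist G ℓ a b) {p q : V} (hp : p ∈ W.support) (hq : q ∈ W.support) :
    gdist G ℓ p q ≤ |gdist G ℓ a p - gdist G ℓ a q| := by
  set W1 := W.takeUntil p hp
  set W2 := W.dropUntil p hp
  have hsum : walkLen ℓ W1 + walkLen ℓ W2 = walkLen ℓ W := by
    rw [← walkLen_append, SimpleGraph.Walk.take_spec]
  have hap : gdist G ℓ a b ≤ gdist G ℓ a p + gdist G ℓ p b :=
    gdist_triangle hℓ W1.reachable W2.reachable
  have h1 := gdist_le hℓ W1
  have h2 := gdist_le hℓ W2
  have hq' : q ∈ W1.support ∨ q ∈ W2.support := by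
    rw [← SimpleGraph.Walk.mem_support_append_iff, SimpleGraph.Walk.take_spec]
    exact hq
  rcases hq' with hq1 | hq2
  · have hs := walkLen_append (ℓ := ℓ) (W1.takeUntil q hq1) (W1.dropUntil q hq1)
    rw [SimpleGraph.Walk.take_spec] at hs
    have h3 := gdist_le hℓ (W1.takeUntil q hq1)
    have h4 := gdist_le hℓ (W1.dropUntil q hq1)
    rw [gdist_comm hℓ (W1.dropUntil q hq1).reachable] at h4
    linarith [le_abs_self (gdist G ℓ a p - gdist G ℓ a q)]
  · have hs := walkLen_append (ℓ := ℓ) (W2.takeUntil q hq2) (W2.dropUntil q hq2)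
    rw [SimpleGraph.Walk.take_spec] at hs
    have h3 := gdist_le hℓ (W2.takeUntil q hq2)
    have h4 := gdist_le hℓ (W2.dropUntil q hq2)
    have h5 := gdist_triangle hℓ (W1.reachable.trans (W2.takeUntil q hq2).reachable)
      (W2.dropUntil q hq2).reachable
    linarith [neg_abs_le (gdist G ℓ a p - gdist G ℓ a q)]

/-- Adding back one guided set per component preserves bounded l1 distortion. -/
theorem guide_embeds (hℓ : ∀ e, 0 ≤ ℓ e) (A : Set V) (φ : G.ConnectedComponent → V → ℝ)
    (hlip : ∀ K x y, G.connectedComponentMk x = K → G.connectedComponentMk y = K →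
      |φ K x - φ K y| ≤ gdist G ℓ x y)
    (hgeo : ∀ K a b, a ∈ A → b ∈ A → G.connectedComponentMk a = K → G.connectedComponentMk b = K →
      gdist G ℓ a b ≤ |φ K a - φ K b|)
    {C : ℝ} (hC : 0 ≤ C) (hH : EmbedsL1 (removeVerts G A) ℓ C) :
    EmbedsL1 G ℓ (500 * (C + 1)) := by
  choose N F hout hin using fun K => guide_component hℓ A K (φ K) (hlip K) (hgeo K) hC hH
  refine embedsL1_of_fintype (ι := Σ c : G.ConnectedComponent, Fin (N c))
    (fun x p => F p.1 x p.2) fun x y hxy => ?_
  have e : ∑ p : Σ c : G.ConnectedComponent, Fin (N c), |F p.1 x p.2 - F p.1 y p.2| =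
      ∑ i, |F (G.connectedComponentMk x) x i - F (G.connectedComponentMk x) y i| := by
    rw [Fintype.sum_sigma]
    refine Finset.sum_eq_single _ (fun c _ hc => Finset.sum_eq_zero fun i _ => ?_) (by simp)
    rw [hout c x (Ne.symm hc), hout c y]
    · simp
    · rw [← SimpleGraph.ConnectedComponent.sound hxy]; exact Ne.symm hc
  rw [e]
  exact hin _ x y rfl (SimpleGraph.ConnectedComponent.sound hxy).symm

omit [Fintype V] in
lemma embedsL1_mono (hℓ : ∀ e, 0 ≤ ℓ e) {C C' : ℝ} (hCC : C ≤ C') (h : EmbedsL1 G ℓ C) :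
    EmbedsL1 G ℓ C' := by
  obtain ⟨N, f, hf⟩ := h
  exact ⟨N, f, fun x y hxy => ⟨(hf x y hxy).1,
    (hf x y hxy).2.trans (mul_le_mul_of_nonneg_right hCC (gdist_nonneg hℓ x y))⟩⟩

/-- Path decompositions of bounded adhesion preserve bounded l1 distortion. -/
theorem pathAdhesion_embeds (hℓ : ∀ e, 0 ≤ ℓ e) {k : ℕ} {lo hi : V → ℕ}
    (hP : PathAdhesion G k lo hi) {C : ℝ} (hC : 0 ≤ C)
    (hbase : ∀ D : Set V, {v | lo v < hi v} ⊆ D → EmbedsL1 (removeVerts G D) ℓ C) :
    EmbedsL1 G ℓ (1000 ^ k * (C + 1)) := by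
  suffices main : ∀ (m : ℕ) (D : Set V),
      (∀ (K : (removeVerts G D).ConnectedComponent) (t : ℕ) (s : Finset V),
        (∀ v ∈ s, v ∉ D ∧ (removeVerts G D).connectedComponentMk v = K ∧ lo v ≤ t ∧ t < hi v) →
        s.card ≤ m) →
      EmbedsL1 (removeVerts G D) ℓ (1000 ^ m * (C + 1)) by
    have e : removeVerts G ∅ = G := by ext; simp [removeVerts]
    have h := main k ∅ (by
      rw [e]
      exact fun K t s hs => hP.2.2 K t s fun v hv => (hs v hv).2)
    rwa [e] at h
  intro m
  induction m with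
  | zero =>
    intro D hD
    refine embedsL1_mono hℓ (by simp) (hbase D fun v hv => ?_)
    by_contra hvD
    have := hD ((removeVerts G D).connectedComponentMk v) (lo v) {v} fun w hw => by
      rw [Finset.mem_singleton] at hw
      subst hw
      exact ⟨hvD, rfl, le_rfl, hv⟩
    simp at this
  | succ m ih =>
    intro D hD
    set H := removeVerts G D with hH
    have hex : ∀ K : H.ConnectedComponent, ∃ a b : V, ∃ W : H.Walk a b,
        H.connectedComponentMk a = K ∧ walkLen ℓ W ≤ gdist H ℓ a b ∧
          ∀ v, H.connectedComponentMk v = K → lo a ≤ lo v ∧ hi v ≤ hi b := by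
      intro K
      have hne : (univ.filter fun v => H.connectedComponentMk v = K).Nonempty :=
        ⟨K.exists_rep.choose, by
          rw [mem_filter]; exact ⟨mem_univ _, K.exists_rep.choose_spec⟩⟩
      obtain ⟨a, ha, hamin⟩ := Finset.exists_min_image _ lo hne
      obtain ⟨b, hb, hbmax⟩ := Finset.exists_max_image _ hi hne
      simp only [mem_filter, mem_univ, true_and] at ha hb hamin hbmax
      obtain ⟨W, hW⟩ := exists_shortest hℓ
        (SimpleGraph.ConnectedComponent.exact (ha.trans hb.symm))
      exact ⟨a, b, W, ha, hW, fun v hv => ⟨hamin v hv, hbmax v hv⟩⟩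
    choose a b W ha hW hext using hex
    have hsupp : ∀ K v, v ∈ (W K).support → H.connectedComponentMk v = K := fun K v hv =>
      (SimpleGraph.ConnectedComponent.sound ((W K).takeUntil v hv).reachable).symm.trans (ha K)
    set A : Set V := {v | ∃ K, v ∈ (W K).support} with hA
    have e : removeVerts H A = removeVerts G (D ∪ A) := by
      ext x y
      simp only [hH, removeVerts, Set.mem_union, not_or]
      tauto
    have hrest : EmbedsL1 (removeVerts H A) ℓ (1000 ^ m * (C + 1)) := by
      rw [e]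
      refine ih (D ∪ A) fun K' t s hs => ?_
      rcases s.eq_empty_or_nonempty with rfl | ⟨v₀, hv₀⟩
      · simp
      set K := H.connectedComponentMk v₀ with hK
      obtain ⟨hv0D, -, hlo, hhi⟩ := hs v₀ hv₀
      have hadj : ∀ x y, H.Adj x y → lo x ≤ hi y := fun x y h => hP.2.1 x y h.1
      obtain ⟨u, hu, hlu, hhu⟩ := exists_crossing hadj (W K)
        ((hext K v₀ hK.symm).1.trans hlo) (hhi.trans_le (hext K v₀ hK.symm).2)
      have hus : u ∉ s := fun h => (hs u h).1 (Or.inr ⟨K, hu⟩)
      have huK := hsupp K u hu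
      have huD : u ∉ D := fun huD => by
        obtain ⟨p⟩ := SimpleGraph.ConnectedComponent.exact (huK.trans hK)
        cases p with
        | nil => exact hv0D (Or.inl huD)
        | cons h q => exact h.2.1 huD
      have hle : removeVerts G (D ∪ A) ≤ H := removeVerts_mono le_rfl Set.subset_union_left
      have := hD K t (insert u s) fun w hw => by
        rcases Finset.mem_insert.1 hw with rfl | hw
        · exact ⟨huD, huK, hlu, hhu⟩
        · obtain ⟨h1, h2, h3⟩ := hs w hw
          exact ⟨fun h => h1 (Or.inl h),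
            component_mono hle (h2.trans (hs v₀ hv₀).2.1.symm), h3⟩
      rw [Finset.card_insert_of_notMem hus] at this
      omega
    have hreach : ∀ K x, H.connectedComponentMk x = K → H.Reachable (a K) x := fun K x hx =>
      SimpleGraph.ConnectedComponent.exact ((ha K).trans hx.symm)
    have hstep := guide_embeds hℓ A (fun K x => gdist H ℓ (a K) x)
      (fun K x y hx hy => gdist_abs_sub_le hℓ (hreach K x hx) (hreach K y hy))
      (fun K x y hx hy hxK hyK => by
        obtain ⟨K1, hx⟩ := hx
        obtain ⟨K2, hy⟩ := hy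
        obtain rfl : K1 = K := (hsupp K1 x hx).symm.trans hxK
        obtain rfl : K2 = K1 := (hsupp K2 y hy).symm.trans hyK
        exact shortest_guide hℓ (W K2) (hW K2) hx hy)
      (by positivity) hrest
    refine embedsL1_mono hℓ ?_ hstep
    have h1 : 1 ≤ (1000 : ℝ) ^ m * (C + 1) :=
      one_le_mul_of_one_le_of_one_le (one_le_pow₀ (by norm_num)) (by linarith)
    rw [pow_succ, show (1000 : ℝ) ^ m * 1000 * (C + 1) = 1000 * (1000 ^ m * (C + 1)) by ring]
    linarith

/-- Nested path decompositions give bounded l1 distortion. -/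
theorem nested_embeds (hℓ : ∀ e, 0 ≤ ℓ e) (k : ℕ) :
    ∀ r : ℕ, ∀ G : SimpleGraph V, Nested k r G → EmbedsL1 G ℓ (54 * (2 * 1000 ^ k) ^ r) := by
  intro r
  induction r with
  | zero =>
    rintro G (h | h)
    · exact embedsL1_mono hℓ (by norm_num) (forest_embeds hℓ h)
    · simpa using inNetwork_embeds hℓ h
  | succ r ih =>
    rintro G ⟨c, hc, h⟩
    refine block_embeds hℓ hc (by positivity) fun i => ?_
    obtain ⟨lo, hi, hP, hr⟩ := h i
    refine embedsL1_mono hℓ ?_ (pathAdhesion_embeds hℓ hP (by positivity) fun D hD =>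
      ih _ (nested_anti k r (removeVerts_mono le_rfl hD) hr))
    have hp : (1 : ℝ) ≤ (2 * 1000 ^ k) ^ r :=
      one_le_pow₀ (by linarith [one_le_pow₀ (show (1 : ℝ) ≤ 1000 by norm_num) (n := k)])
    rw [pow_succ ((2 : ℝ) * 1000 ^ k)]
    have hk : (0 : ℝ) < 1000 ^ k := by positivity
    rw [show (54 : ℝ) * ((2 * 1000 ^ k) ^ r * (2 * 1000 ^ k))
      = 1000 ^ k * (2 * (54 * (2 * 1000 ^ k) ^ r)) by ring]
    exact mul_le_mul_of_nonneg_left (by linarith) hk.le

omit [Fintype V] in
/-- One round with a single label. -/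
theorem nested_round {k r : ℕ} {lo hi : V → ℕ} (hP : PathAdhesion G k lo hi)
    (h : Nested k r (removeVerts G {v | lo v < hi v})) : Nested k (r + 1) G := by
  rcases isEmpty_or_nonempty V with hV | hV
  · refine ⟨id, fun v => isEmptyElim v, fun i => ⟨lo, hi, pathAdhesion_anti (piece_le i) hP,
      nested_anti k r (removeVerts_mono (piece_le i) subset_rfl) h⟩⟩
  · obtain ⟨v⟩ := hV
    exact ⟨fun _ => s(v, v), fun _ _ _ _ _ _ _ => rfl, fun i => ⟨lo, hi,
      pathAdhesion_anti (piece_le i) hP,
      nested_anti k r (removeVerts_mono (piece_le i) subset_rfl) h⟩⟩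

omit [Fintype V] in
/-- Deleting at most `k` vertices in every component costs one level. -/
theorem nested_delete {k r : ℕ} (A : Set V)
    (hA : ∀ K : G.ConnectedComponent, ∀ s : Finset V,
      (∀ a ∈ s, a ∈ A ∧ G.connectedComponentMk a = K) → s.card ≤ k)
    (h : Nested k r (removeVerts G A)) : Nested k (r + 1) G := by
  refine nested_round (lo := fun _ => 0) (hi := fun v => if v ∈ A then 1 else 0)
    ⟨fun v => Nat.zero_le _, fun a b _ => Nat.zero_le _, fun K t s hs => hA K s fun a ha => ?_⟩
    (nested_anti k r (removeVerts_mono le_rfl fun v hv => by simp [Set.mem_ofPred_eq, hv]) h)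
  refine ⟨?_, (hs a ha).1⟩
  by_contra hcon
  simpa [hcon] using (hs a ha).2.2

omit [Fintype V] in
/-- Path decompositions with bags of at most `k` vertices are at level one. -/
theorem nested_of_pathwidth {k : ℕ} (lo hi : V → ℕ) (hle : ∀ v, lo v ≤ hi v)
    (hadj : ∀ a b, G.Adj a b → lo a ≤ hi b)
    (hbag : ∀ t (s : Finset V), (∀ v ∈ s, lo v ≤ t ∧ t ≤ hi v) → s.card ≤ k) :
    Nested k 1 G := by
  refine nested_round (lo := fun v => 2 * lo v) (hi := fun v => 2 * hi v + 1)
    ⟨fun v => by have := hle v; simp only; omega,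
      fun a b h => by have := hadj a b h; simp only; omega,
      fun K t s hs => hbag (t / 2) s fun v hv => by
        obtain ⟨-, h1, h2⟩ := hs v hv
        simp only at h1 h2
        omega⟩ ?_
  have e : removeVerts G {v | 2 * lo v < 2 * hi v + 1} = ⊥ := by
    ext x y
    simp only [removeVerts, SimpleGraph.bot_adj, iff_false, not_and, not_not]
    intro _ hx
    exact absurd (show 2 * lo x < 2 * hi x + 1 by have := hle x; omega) hx
  rw [e]
  exact Or.inl SimpleGraph.isAcyclic_bot

end Vale.Agent.P235
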